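import Vale.Agent.P275Z.RHF
import Vale.Agent.P275MB.Iso

/-!
# P275, block NB: the Betti space without pole is the character variety
-/

set_option linter.unusedSectionVars false

open scoped Topology commutatorElement
open Filter Set Matrix
open Vale.Agent.P281Z.Hm (Mx)
open Vale.Agent.P275GC (At)
open Vale.Agent.P275NA (Cy)
open Vale.Agent.P275MO
open Vale.Agent.P275ST (zeta Rep XB)
open Vale.Agent.P275RH (cwd)
open Vale.Agent.P275Z

noncomputable section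

namespace Vale.Agent.P275NB

variable {g n : ℕ} {d : ℤ}

theorem wv_cwd (ρ : Tup g n) : wv ρ (cwd g) =
    ((List.ofFn fun j => ⁅ρ (j, false), ρ (j, true)⁆).prod : SpecialLinearGroup (Fin n) ℂ).1 := by
  rw [wv, cwd, map_list_prod, List.map_ofFn]
  simp only [Function.comp_def, map_commutatorElement, FreeGroup.lift_apply_of]

theorem mon_zero : mon d (0 : Mx (Fin n)) = zeta n d • (1 : Mx (Fin n)) := by
  rw [mon, smul_zero, NormedSpace.exp_zero]

theorem gen_zero (cop : IsCoprime (n : ℤ) d) : Gen d (0 : Mx (Fin n)) := by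
  have e : (0 : Mx (Fin n)).charpoly.roots = Multiset.replicate n 0 := by
    rw [charpoly_zero, Polynomial.roots_X_pow, Fintype.card_fin, Multiset.nsmul_singleton]
  rw [Gen, e]
  refine ⟨fun a ha b hb k h => ?_, fun s hs h0 h1 k h => ?_⟩
  · rw [Multiset.eq_of_mem_replicate ha, Multiset.eq_of_mem_replicate hb, sub_zero] at h
    exact_mod_cast h.symm
  · obtain ⟨m, hm, rfl⟩ := Multiset.le_replicate_iff.1 hs
    have a : 0 < m := Nat.pos_of_ne_zero fun c => h0 (by rw [c, Multiset.replicate_zero])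
    have b : m < n := lt_of_le_of_ne hm fun c => h1 (by rw [c])
    have c : (n : ℂ) ≠ 0 := Nat.cast_ne_zero.2 (a.trans b).ne'
    rw [Multiset.sum_replicate, smul_zero, Multiset.card_replicate, zero_sub, neg_eq_iff_eq_neg,
      div_eq_iff c] at h
    have f : (m : ℤ) * d = n * (-k) := by exact_mod_cast h.trans (mul_comm _ _)
    exact absurd (Int.natCast_dvd_natCast.1 (cop.dvd_of_dvd_mul_right ⟨_, f⟩))
      (Nat.not_dvd_of_pos_of_lt a b)

theorem conj_equiv : Equivalence (Rep.Conj (g := g) (n := n) (d := d)) :=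
  ⟨fun _ => ⟨1, fun _ => by simp⟩, fun ⟨P, h⟩ => ⟨P⁻¹, fun s => by rw [h s]; group⟩,
    fun ⟨P, h⟩ ⟨Q, k⟩ => ⟨Q * P, fun s => by rw [k s, h s]; group⟩⟩

theorem rep_pt_eq {ρ ρ' : Rep g n d} : ρ.pt = ρ'.pt ↔ ρ.Conj ρ' :=
  Quot.eq.trans conj_equiv.eqvGen_iff

theorem cj_conj (hn : 0 < n) {ρ ρ' : Rep g n d} {h : Mx (Fin n)} (h0 : h.det ≠ 0)
    (c : Cj h ρ.1 ρ'.1) : ρ.Conj ρ' := by
  obtain ⟨t, ht⟩ := IsAlgClosed.exists_pow_nat_eq h.det hn
  refine ⟨⟨t • h⁻¹, by rw [det_smul, Fintype.card_fin, ht, mul_comm,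
    det_nonsing_inv_mul_det _ h0.isUnit]⟩, fun s => eq_mul_inv_of_mul_eq (Subtype.ext ?_)⟩
  change (ρ'.1 s).1 * (t • h⁻¹) = (t • h⁻¹) * (ρ.1 s).1
  rw [c s, Matrix.mul_smul, Matrix.smul_mul, mul_nonsing_inv_cancel_right _ _ h0.isUnit]

theorem conj_cj {ρ ρ' : Rep g n d} (c : ρ.Conj ρ') :
    ∃ h : Mx (Fin n), h.det = 1 ∧ Cj h ρ.1 ρ'.1 := by
  obtain ⟨P, c⟩ := c
  refine ⟨(P⁻¹).1, (P⁻¹).2, fun s => ?_⟩
  rw [c s, inv_eq_left_inv (B := P.1) (congrArg Subtype.val (mul_inv_cancel P))]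
  rfl

/-- the tuple of a framed object without pole -/
def toR (q : BFr g d (tauX n).q) : Rep g n d :=
  ⟨q.1.2, by rw [← wv_cwd, q.2.2.2, (Submodule.mem_bot ℂ).1 q.2.1, mon_zero]⟩

/-- the framed object of a tuple -/
def ofR (cop : IsCoprime (n : ℤ) d) (ρ : Rep g n d) : BFr g d (tauX n).q :=
  ⟨(0, ρ.1), Submodule.zero_mem _, gen_zero cop, by rw [wv_cwd, mon_zero]; exact ρ.2⟩

/-- the Betti space without pole -/
def bet (hn : 0 < n) (cop : IsCoprime (n : ℤ) d) : Bet g d (tauX n) ≃ₜ XB g n d where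
  toFun := Quot.map toR fun _ _ ⟨_, _, a, _, b⟩ => cj_conj hn a b
  invFun := Quot.map (ofR cop) fun _ _ c => by
    obtain ⟨h, a, b⟩ := conj_cj c
    exact ⟨h, trivial, a ▸ one_ne_zero, by simp [ofR], b⟩
  left_inv := Quot.ind fun q => congrArg (Quot.mk _)
    (Subtype.ext (Prod.ext ((Submodule.mem_bot ℂ).1 q.2.1).symm rfl))
  right_inv := Quot.ind fun _ => rfl
  continuous_toFun := continuous_quot_lift _ (continuous_quot_mk.comp
    ((continuous_snd.comp continuous_subtype_val).subtype_mk _))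
  continuous_invFun := continuous_quot_lift _ (continuous_quot_mk.comp
    ((continuous_const.prodMk continuous_subtype_val).subtype_mk _))

variable {C : Type} [TopologicalSpace C] {A : At C} {l : Cy A ℂ}

/-- the inverse of the monodromy map -/
theorem exists_mu (hn : 0 < n) (cop : IsCoprime (n : ℤ) d) (R : RHD A l g n d) {i : Fin R.N} {p : C}
    (hp : p ∈ R.V i) : ∃ μ : XB g n d → Mod A l (tauX n), Topology.IsEmbedding μ ∧
      (∀ x, (μ x).lam = 1 ∧ (μ x).x = p) ∧ ∀ z : Ob A l (tauX n), z.1.lam = 1 → z.1.x = p →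
        ∃ ρ : Rep g n d, R.Rel i z.1 ρ.1 ∧ μ ρ.pt = z.pt := by
  have hτ : ∀ X ∈ (tauX n).q, X ∈ (tauX n).H := fun _ _ => trivial
  let Ψ := R.Ψ (tauX n) hτ i
  refine ⟨fun x => (Ψ.symm (⟨p, hp⟩, (bet hn cop).symm x)).1, Topology.IsEmbedding.subtypeVal.comp
    (Ψ.symm.isEmbedding.comp ((isEmbedding_prodMkRight _).comp (bet hn cop).symm.isEmbedding)),
    fun x => ⟨(Ψ.symm _).2.1, ?_⟩, fun z a b => ?_⟩
  · obtain ⟨y, hy⟩ := Ψ.surjective (⟨p, hp⟩, (bet hn cop).symm x)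
    obtain ⟨z, hz⟩ := pt_surj y.1
    obtain ⟨⟨ρ, h⟩, k⟩ := R.spec (tauX n) hτ i z (hz ▸ y.2)
    obtain ⟨q, -, e, -⟩ := k ρ h
    rw [show (⟨z.pt, hz ▸ y.2⟩ : DR A l d (tauX n) (R.V i)) = y from Subtype.ext hz] at e
    beta_reduce
    rw [← hy, Ψ.symm_apply_apply, ← hz]
    exact e.symm.trans (congrArg (fun v => (v.1 : C)) hy)
  · have hz : z.pt ∈ DR A l d (tauX n) (R.V i) := ⟨a, mem_of_eq_of_mem b hp, by
      rw [(Submodule.mem_bot ℂ).1 z.pt.rep.2.2]; exact gen_zero cop⟩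
    obtain ⟨⟨ρ, h⟩, k⟩ := R.spec (tauX n) hτ i z hz
    obtain ⟨q, c, e, f⟩ := k ρ h
    refine ⟨toR q, (congrArg (fun v => R.Rel i z.1 v.2) c).mpr h, ?_⟩
    have : (⟨p, hp⟩, (bet hn cop).symm (toR q).pt) = Ψ ⟨z.pt, hz⟩ :=
      Prod.ext (Subtype.ext (e.trans b).symm) (((bet hn cop).symm_apply_apply (q.pt _)).trans f.symm)
    beta_reduce
    rw [this, Ψ.symm_apply_apply]

end Vale.Agent.P275NB
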