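import Vale.Agent.P275NB.Main
import Vale.Agent.P275AD.Trv
import Vale.Agent.P275HK.Inj

/-!
# P275, block NB: the bridge from Riemann-Hilbert and the nonabelian Hodge map
-/

open Vale.Agent.P275Z
open Vale.Agent.P275NU (NU)

namespace Vale.Agent.P275NB

theorem brg' (h2 : RHF) (h4 : ∀ (S : Sit) (T : S.Atl), NU T.A S.n T.l) : BRG :=
  brg P275AD.atl h2 P275AD.rpa' h4 fun _ A => P275HK.par A

theorem nahb' (h2 : RHF) (h4 : ∀ (S : Sit) (T : S.Atl), NU T.A S.n T.l) (h5 : HITX) : NAHB :=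
  nahb_of (brg' h2 h4) P275AD.rpa' h5

end Vale.Agent.P275NB
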