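import Vale.Agent.P275NB.Pie
import Vale.Agent.P275MB.Lim

/-!
# P275, block FLT: canonical flat frames
-/

set_option linter.unusedSectionVars false

open scoped Topology Real Matrix.Norms.Operator
open Filter Set Metric Complex
open Vale.Agent.P275GC (At)
open Vale.Agent.P275GC.At
open Vale.Agent.P275NA (Cy Fm Mn)
open Vale.Agent.P275MO Vale.Agent.P275MB
open Vale.Agent.P275ST (Pc)
open Vale.Agent.P275RH (cwd Lc)
open Vale.Agent.P275Z (InU Tup wv Flt)
open Vale.Agent.P275RL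

noncomputable section

namespace Vale.Agent.P275NB

variable {C : Type} [TopologicalSpace C] {n g : ℕ} {A : At C} {l : Cy A ℂ} {d : ℤ}
  (P : Loc A l g n d) {p : C} (hp : p ∈ P.V)

/-- the data of the relation -/
abbrev Dt : Type := Tup g n × (P.ι → Fm A (Mn n)) × (ℂ → Mn n) × ℂ

/-- the normalised multivalued frame -/
def Dt.E (t : Dt P) (k : P.ι) (j : Fin A.N) (v : ℂ) (w : Fg g) : Mn n :=
  t.2.2.2⁻¹ • (t.2.1 k j v * wv t.1 w)

/-- the index at the base point -/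
def k0 : P.ι := (P.cy.cov (P.ν (q0 P hp))).choose

/-- frames of an object without pole, normalised at the base point -/
structure Fz (z : Dat C A.N n) (t : Dt P) : Prop where
  x : z.x = p
  R : z.R = 0
  pre : Pre A l d z
  frm : ∀ hx, Frm P z hx t.1 t.2.1
  gau : IsG A z P.a P.δ t.2.2.1
  nrm : ∀ (q : Nd P.V P.δ) k, q.1.1 = p → P.ν q ∈ P.U k → ∃ f : ℂ,
    t.E P k P.a (A.e P.a p + exp q.1.2) (P.b k q) = f • t.2.2.1 (A.e P.a p + exp q.1.2)
  ne : t.2.2.2 ≠ 0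
  one : t.E P (k0 P hp) P.a (A.e P.a p + exp (q0 P hp).1.2) (P.b (k0 P hp) (q0 P hp)) =
    t.2.2.1 (A.e P.a p + exp (q0 P hp).1.2)

variable {P hp} {z z' : Dat C A.N n} {t t' : Dt P} {ρ : Tup g n} {y : Pc p} {k m : P.ι}
  {j j' : Fin A.N} {r : ℝ} {h1 : 1 < r} {h2 : r ≤ A.R} {φ : Fm A (Mn n)} {h : Mn n}

theorem k0_mem : fib hp (P.pc (q0 P hp) rfl) ∈ P.U (k0 P hp) :=
  (congrArg (· ∈ P.U (k0 P hp)) (P.fib_pc (q0 P hp) rfl hp)).mpr (P.cy.cov _).choose_spec

theorem ex_fz (hn : n ≠ 0) (h : Rel P z ρ) (hx : z.x = p) (hR : z.R = 0) :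
    ∃ t, Fz P hp z t ∧ t.1 = ρ := by
  subst hx
  obtain ⟨pre, hx, F, fr, G, hG, nr⟩ := h
  simp only [hR, ex, smul_zero, NormedSpace.exp_zero, mul_one] at nr
  obtain ⟨f, e⟩ := nr (q0 P hp) (k0 P hp) rfl (P.cy.cov _).choose_spec
  have f0 : f ≠ 0 := fun a => by
    have b := fr.det_ne (y := P.pc (q0 P hp) rfl) k0_mem (P.ν_e _).1
    have c := congrArg Matrix.det e
    rw [a, Matrix.det_smul, Fintype.card_fin, zero_pow hn, zero_mul, Matrix.det_mul, wv_det,
      mul_one] at c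
    exact b (((congrArg fun v => (F _ _ v).det) (P.ν_e _).2).trans c)
  refine ⟨(ρ, F, G, f), ⟨rfl, hR, pre, fun _ => fr, hG, fun q k a b => ?_, f0, ?_⟩, rfl⟩
  · obtain ⟨c, e'⟩ := nr q k a b
    exact ⟨f⁻¹ * c, by simp only [Dt.E, e', smul_smul]⟩
  · simp only [Dt.E, e, inv_smul_smul₀ f0]

namespace Fz

variable (a : Fz P hp z t)
include a

theorem coc (hk : fib hp y ∈ P.U k) (hm : fib hp y ∈ P.U m) (hj : InU A j y) (w : Fg g) :
    t.E P k j (A.e j y) (P.c k m (fib hp y) * w) = t.E P m j (A.e j y) w := by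
  obtain rfl := a.x
  rw [Dt.E, Dt.E, (a.frm hp).coc y k m j hk hm hj, wv_mul, mul_assoc]

theorem chg (hk : fib hp y ∈ P.U k) (hj : InU A j y) (hj' : InU A j' y) (w : Fg g) :
    t.E P k j (A.e j y) w = z.g j j' (A.e j y) * t.E P k j' (A.e j' y) w := by
  obtain rfl := a.x
  rw [Dt.E, Dt.E, (a.frm hp).chg y k j j' hk hj hj', mul_smul_comm, mul_assoc]

theorem det (hk : fib hp y ∈ P.U k) (hj : InU A j y) (w : Fg g) :
    (t.E P k j (A.e j y) w).det ≠ 0 := by
  obtain rfl := a.x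
  rw [Dt.E, Matrix.det_smul, Matrix.det_mul, wv_det, mul_one]
  exact mul_ne_zero (pow_ne_zero _ (inv_ne_zero a.ne)) ((a.frm hp).det_ne hk hj)

theorem src : z.x ∈ ((A.res r h1 h2).e P.a).source := InU.res (P.inU (a.x ▸ hp))

theorem bal : ball (A.e P.a z.x) P.δ ⊆ ball 0 (A.res r h1 h2).R := P.ball_res (a.x ▸ hp) h1

theorem det_G {w : ℂ} (hw : w ∈ ball (A.e P.a p) P.δ) : (t.2.2.1 w).det ≠ 0 := by
  obtain ⟨r, h1, h2, gz⟩ := a.pre.good
  rw [IsG.det gz a.pre.gen a.src a.bal a.gau (a.x ▸ hw)]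
  exact gz.fr _ a.src

theorem loc [T2Space C] (hn : n ≠ 0) (gz : Good (A.res r h1 h2) l z) (hk : fib hp y ∈ P.U k)
    {ε : ℝ} {s : ℂ → ℂ} {Φ Φ' : ℂ → Mn n} (s1 : s (A.e j y) = 1)
    (hε : ∀ v ∈ ball (A.e j y) ε, (∃ y' : Pc p, (fib hp y' ∈ P.U k ∧ InU A j y') ∧ A.e j y' = v) ∧
      ContinuousAt s v ∧ s v ^ n = P.u p j v / P.u p j (A.e j y))
    (G : Gau (A.e j y) ε (fun v => (v - A.e j y) • z.a j v) Φ Φ') (w : Fg g) :
    ∀ v ∈ ball (A.e j y) ε, t.E P k j v w = (s v • Φ v) * t.E P k j (A.e j y) w := by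
  obtain rfl := a.x
  intro v hv
  have v0 := mem_ball_self (x := A.e j y) (pos_of_mem_ball hv)
  have of : ∀ v ∈ ball (A.e j y) ε, v ∈ off (A.res r h1 h2) z.x j := fun v hv => by
    obtain ⟨⟨y', b, rfl⟩, -⟩ := hε v hv
    exact InU.off b.2 y'.2
  have dt : ∀ v ∈ ball (A.e j y) ε, (t.2.1 k j v).det = P.u z.x j v ∧ P.u z.x j v ≠ 0 :=
    fun v hv => by
      obtain ⟨⟨y', b, rfl⟩, -⟩ := hε v hv
      exact ⟨(a.frm hp).det y' k j b.1 b.2, P.un _ hp j _ (InU.offA b.2)⟩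
  have lc : Lc (ball (A.e j y) ε) fun v => (t.2.1 k j v)⁻¹ * (s v • (Φ v * t.2.1 k j (A.e j y))) :=
    fun v hv => by
      obtain ⟨⟨y', b, rfl⟩, -⟩ := hε v hv
      refine ((a.frm hp).pf y' k j b.1 b.2).lc' hn
        ((((G.ph ((gz.hol j).continuousOn.mono of) hv).2.mul
          ((dt _ v0).1.trans_ne (dt _ v0).2)).pf).smul
            (eventually_of_mem (isOpen_ball.mem_nhds hv) fun u hu => (hε u hu).2.1))
        ((dt _ hv).1.trans_ne (dt _ hv).2) one_ne_zero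
        (eventually_of_mem (isOpen_ball.mem_nhds hv) fun u hu => ?_)
      rw [Matrix.det_smul, Fintype.card_fin, (hε u hu).2.2, Matrix.det_mul, G.det_one (fun u hu => by
        simp only [Matrix.trace_smul, gz.tr j u (of u hu), sub_self, smul_zero, zero_smul,
          Matrix.trace_zero]) u hu,
        (dt _ v0).1, (dt u hu).1, one_mul, one_mul, div_mul_cancel₀ _ (dt _ v0).2]
  obtain ⟨γ, hγ⟩ := ((convex_ball _ ε).isPathConnected ⟨_, v0⟩).joinedIn _ v0 _ hv
  have e := lc.path γ hγ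
  rw [s1, G.g1, one_smul, one_mul, inv_mul' ((dt _ v0).1.trans_ne (dt _ v0).2)] at e
  have e' := congrArg (t.2.1 k j v * ·) e
  simp only [mul_inv_can ((dt _ hv).1.trans_ne (dt _ hv).2), mul_one] at e'
  rw [Dt.E, Dt.E, mul_smul_comm, ← mul_assoc, smul_mul_assoc (s v), e']

variable (b : Fz P hp z' t') (f : IsoBy (A.res r h1 h2) z z' φ h)
include b f

theorem com : ∃ (r : ℝ) (h1 : 1 < r) (h2 : r ≤ A.R), Good (A.res r h1 h2) l z ∧
    Good (A.res r h1 h2) l z' ∧ IsoBy (A.res r h1 h2) z z' φ h := by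
  obtain ⟨s, a1, a2, gz⟩ := a.pre.good
  obtain ⟨s', b1, b2, gz'⟩ := b.pre.good
  have k := lt_min h1 (lt_min a1 b1)
  exact ⟨_, k, _, Good.mono gz k ((min_le_right _ _).trans (min_le_left _ _)),
    Good.mono gz' k ((min_le_right _ _).trans (min_le_right _ _)), IsoBy.mono f k (min_le_left _ _)⟩

theorem nat_G : ∀ w ∈ ball (A.e P.a p) P.δ, φ P.a w * t.2.2.1 w = t'.2.2.1 w * h := by
  obtain ⟨r, h1, h2, gz, gz', f⟩ := a.com b f
  have e := a.x
  have e' := b.x
  have k : Hz (A.e P.a p) P.δ (fill A z' P.a) (fill A z P.a) (φ P.a) :=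
    ⟨(f.hol _).mono (e ▸ a.bal), fun v hv => by
      by_cases c : v = A.e P.a p
      · have u := fill_at (A := A) (e ▸ (P.sub p hp).1 : z.x ∈ _)
        have u' := fill_at (A := A) (e' ▸ (P.sub p hp).1 : z'.x ∈ _)
        rw [a.R, e] at u
        rw [b.R, e'] at u'
        simp [c, u, u']
      · have o : v ∈ off (A.res r h1 h2) z.x P.a := (off_iff a.src).2 ⟨a.bal (e ▸ hv), e ▸ c⟩
        have := f.con _ v o
        rw [a.pre.lam, one_smul] at this
        rw [fill_off (A := A) o.2, fill_off (A := A) (z := z') (f.x ▸ o.2), e, e', smul_mul_assoc,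
          ← smul_add, mul_smul_comm]
        exact congrArg _ this⟩
  have g1 := a.gau.1
  have g2 := b.gau.1
  rw [e, a.R] at g1
  rw [e', b.R] at g2
  refine Hz.uniq (B := fun _ => 0) ((Good.fill gz' b.src).mono (e' ▸ b.bal))
    (differentiableOn_const _) ?_ (k.mul g1) (g2.mul (Hz.const fun _ _ => by simp)) ?_
  · have := fill_nr gz' b.pre.gen b.src
    rwa [b.R, e'] at this
  · have := f.fr _ a.src
    rw [← a.gau.2, ← b.gau.2, e, e'] at this
    exact this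

theorem nat_E (S : Std A l n d) (hk : fib hp y ∈ P.U k) (hj : InU A j y) (w : Fg g) :
    φ j (A.e j y) * t.E P k j (A.e j y) w = t'.E P k j (A.e j y) w * h := by
  have := S.t2
  have := S.conn
  have nG := a.nat_G b f
  obtain ⟨r, h1, h2, gz, gz', f⟩ := a.com b f
  obtain ⟨κ, hκ⟩ := det_const (Good.cc_l gz) f.hol gz.det gz'.det f.law
  obtain rfl := a.x
  obtain ⟨M, -, m1, m2⟩ := (a.frm hp).cmp S (b.frm (f.x ▸ hp)) f.x (φ := φ) (κ := κ)
    (hκ j _ (unit_r h1 hj.2) ▸ f.det j _ (unit_r h1 hj.2))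
    (fun y j j' _ u v => g_det_ne (A := A.res r h1 h2) gz' (InU.O u v)) fun y j c u =>
      ⟨f.hol.an (unit_r h1 u.2) j, hκ j _ (unit_r h1 u.2), ⟨0, by
        have := f.con j _ (InU.off u c)
        rw [a.pre.lam, one_smul] at this
        rw [zero_smul, add_zero]
        exact this⟩, fun j' v => (f.law j j' _ (InU.O u v)).trans
          (congrArg (fun w => _ * φ j' w) (tr_e (A := A) u.1))⟩
  have k : ∀ (y : Pc z.x) k j w, fib hp y ∈ P.U k → InU A j y →
      φ j (A.e j y) * t.E P k j (A.e j y) w =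
        t'.E P k j (A.e j y) w * ((t'.2.2.2 * t.2.2.2⁻¹) • M) := fun y k j w u v => by
    rw [Dt.E, Dt.E, mul_smul_comm, ← mul_assoc, m2 y k j u v, mul_assoc, ← m1, smul_mul_assoc,
      mul_smul_comm, smul_smul, inv_mul_cancel_left₀ b.ne, mul_assoc]
  have e := k _ _ _ (P.b (k0 P hp) (q0 P hp)) k0_mem (P.ν_e _).1
  have e' : A.e P.a (P.pc (q0 P hp) rfl : Pc z.x) = A.e P.a z.x + exp (q0 P hp).1.2 := (P.ν_e _).2
  have o : A.e P.a z.x + exp (q0 P hp).1.2 ∈ ball (A.e P.a z.x) P.δ := P.mem_ball (q0 P hp)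
  rw [e', a.one, b.one, nG _ o] at e
  rw [k y _ j w hk hj, ← inv_mul_can (b.det_G o) (_ • M), ← e, inv_mul_can (b.det_G o)]

end Fz

section fam

variable {T : Type} [TopologicalSpace T] {F : T → Dat C A.N n} {W : Set T} {τ : T → Dt P}
  (f : FamOn (A.res r h1 h2) l F W) (a : ∀ t ∈ W, Fz P hp (F t) (τ t))
include f a

theorem cont_G [T2Space C] :
    ContinuousOn (fun q : T × ℂ => (τ q.1).2.2.1 q.2) (W ×ˢ ball (A.e P.a p) P.δ) := by
  have hc : ContinuousOn (fun t => A.e P.a (F t).x) W :=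
    continuousOn_const.congr fun t ht => by rw [(a t ht).x]
  have c1 : ContinuousOn (fun q : T × ℂ => fill A (F q.1) P.a q.2)
      {q | q.1 ∈ W ∧ q.2 ∈ ball (A.e P.a (F q.1).x) P.δ} :=
    (FamOn.fill f P.a).mono fun q hq => ⟨⟨hq.1, (a _ hq.1).src⟩, (a _ hq.1).bal hq.2⟩
  refine ((cont_sh (f := fun t => (τ t).2.2.1) hc).1 (hz_fam (A := fun t => fill A (F t) P.a) (B := fun t _ => (F t).R)
    (f := fun t => (τ t).2.2.1) (fun t ht => (Good.fill (f.good t ht) (a t ht).src).mono (a t ht).bal)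
    (fun _ _ => differentiableOn_const _) (fun t ht => (a t ht).gau.1)
    (fun t ht => fill_nr (A := A.res r h1 h2) (f.good t ht) (a t ht).pre.gen (a t ht).src)
    ((cont_sh (f := fun t => fill A (F t) P.a) hc).2 c1) (f.R.comp continuousOn_fst fun _ hq => hq.1)
    (((f.σ P.a).mono fun t ht => ⟨ht, (a t ht).src⟩).congr fun t ht => (a t ht).gau.2))).mono
    fun q hq => ⟨hq.1, by rw [(a _ (mem_prod.1 hq).1).x]; exact hq.2⟩

theorem cont_loc [T2Space C] (hn : n ≠ 0) (hk : fib hp y ∈ P.U k) (hj : InU A j y) :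
    ∃ B ∈ 𝓝 (A.e j y), ∃ Θ : T → ℂ → Mn n, ContinuousOn (fun q : T × ℂ => Θ q.1 q.2) (W ×ˢ B) ∧
      ∀ t ∈ W, ∀ v ∈ B, ∀ w, (τ t).E P k j v w = Θ t v * (τ t).E P k j (A.e j y) w := by
  have u0 := P.un p hp j _ (InU.offA hj)
  obtain ⟨s, s1, hs⟩ := root_ex (x := A.e j y) (q := fun v => P.u p j v / P.u p j (A.e j y))
    (s₀ := 1) hn (eventually_of_mem ((off_open p j).mem_nhds (InU.offA hj)) fun v hv =>
      ((((P.uc j).comp (f := fun v => (p, v)) (by fun_prop) fun v hv => ⟨hp, hv⟩).continuousAt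
        ((off_open p j).mem_nhds hv))).div_const _) (div_ne_zero u0 u0) (by rw [div_self u0, one_pow])
  obtain ⟨ε, ε0, hε⟩ := Metric.eventually_nhds_iff_ball.1
    (((ev_chart hj.1 (P.ev_mem hp hk hj)).mono fun v ⟨y', b, _, c⟩ => (⟨y', b, c⟩ :
      ∃ y' : Pc p, (fib hp y' ∈ P.U k ∧ InU A j y') ∧ A.e j y' = v)).and hs)
  have of : ∀ t ∈ W, ∀ v ∈ ball (A.e j y) ε, v ∈ off (A.res r h1 h2) (F t).x j := fun t ht v hv => by
    obtain ⟨⟨y', b, rfl⟩, -⟩ := hε v hv
    exact InU.off b.2 ((a t ht).x ▸ y'.2)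
  have hd : ∀ t ∈ W, DifferentiableOn ℂ ((F t).a j) (ball (A.e j y) ε) := fun t ht =>
    ((f.good t ht).hol j).mono (of t ht)
  choose! Φ Φ' G using fun t ht => flat_ex (hd t ht)
  refine ⟨_, ball_mem_nhds _ ε0, fun t v => s v • Φ t v, ContinuousOn.smul (fun q hq =>
    ((hε _ hq.2).2.1.comp continuousAt_snd).continuousWithinAt) (gau_fam (c := fun _ => A.e j y)
      continuousOn_const (fun t ht => (differentiableOn_id.sub_const _).smul (hd t ht)) G
      (fun t _ => by simpa using nr_zero) ((continuousOn_snd.sub continuousOn_const).smul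
        ((f.a j).mono fun q hq => ⟨hq.1, of _ hq.1 _ hq.2⟩))).1,
    fun t ht v hv w => (a t ht).loc hn (f.good t ht) hk s1 hε (G t ht) w v hv⟩

theorem cont_chg (hk : fib hp y ∈ P.U k) (hj : InU A j y) (hj' : InU A j' y) {w : Fg g}
    (c : ContinuousOn (fun t => (τ t).E P k j' (A.e j' y) w) W) :
    ContinuousOn (fun t => (τ t).E P k j (A.e j y) w) W :=
  (((f.g j j').comp (f := fun t => (t, A.e j y)) (by fun_prop) fun _ ht =>
    ⟨ht, InU.O hj hj'⟩).mul c).congr fun t ht => (a t ht).chg hk hj hj' w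

theorem cont_E (S : Std A l n d) (hk : fib hp y ∈ P.U k) (hj : InU A j y) (w : Fg g) :
    ContinuousOn (fun t => (τ t).E P k j (A.e j y) w) W := by
  have := S.t2
  have hn : n ≠ 0 := by have := S.two; omega
  refine cov_ind P hp S (Q := fun k y w => ∀ j, InU A j y →
    ContinuousOn (fun t => (τ t).E P k j (A.e j y) w) W)
    (fun k m y w hk hm c j hj => (c j hj).congr fun t ht => (a t ht).coc hk hm hj w)
    (fun k y hk => ?_) (w₀ := P.b (k0 P hp) (q0 P hp)) k0_mem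
    (fun j hj => cont_chg f a k0_mem hj (P.ν_e _).1 ?_) k y w hk j hj
  · obtain ⟨i, hi⟩ := A.cov y
    obtain ⟨B, hB, Θ, c, e⟩ := cont_loc f a hn hk hi
    filter_upwards [ev_fib hi.1 hB, P.ev_mem hp hk hi] with y' b u w
    have c' : ContinuousOn (fun t => Θ t (A.e i y')) W :=
      c.comp (f := fun t => (t, A.e i y')) (by fun_prop) fun _ ht => ⟨ht, b⟩
    have dt : ∀ t ∈ W, (Θ t (A.e i y')).det ≠ 0 := fun t ht => by
      have := (a t ht).det u.1 u.2 w
      rw [e t ht _ b, Matrix.det_mul] at this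
      exact left_ne_zero_of_mul this
    exact ⟨fun q j hj => cont_chg f a hk hj hi (((co_inv c' dt).mul (q i u.2)).congr fun t ht => by
        simp only [Pi.mul_apply, e t ht _ b, inv_mul_can (dt t ht)]),
      fun q j hj => cont_chg f a u.1 hj u.2 ((c'.mul (q i hi)).congr fun t ht => e t ht _ b w)⟩
  · have e' : A.e P.a (P.pc (q0 P hp) rfl : Pc p) = A.e P.a p + exp (q0 P hp).1.2 := (P.ν_e _).2
    rw [e']
    exact ((cont_G f a).comp (f := fun t => (t, _)) (by fun_prop) fun _ ht =>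
      ⟨ht, P.mem_ball (q0 P hp)⟩).congr fun t ht => (a t ht).one

end fam

variable (P) in
/-- **FLT** -/
theorem flt (S : Std A l n d) : FLT P := fun p hp => by
  have := S.t2
  have hn : n ≠ 0 := by have := S.two; omega
  obtain ⟨M, T, cov⟩ := pie_cover P hp S
  choose m hm using fun y : Pc p => P.cy.cov (fib hp y)
  let τ : Dat C A.N n → Dt P := fun z => Classical.epsilon (Fz P hp z)
  have hτ : ∀ z ρ, Rel P z ρ → z.x = p → z.R = 0 → Fz P hp z (τ z) := fun z ρ a b c =>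
    Classical.epsilon_spec ((ex_fz hn a b c).imp fun _ e => e.1)
  have sD : ∀ x ∈ Dk P p (P.δ / 2), A.e P.a x ∈ ball (A.e P.a p) P.δ := fun x hx =>
    ball_subset_ball (half_le_self P.hδ.le) hx.2
  have evβ : ∀ a, ∀ x ∈ (T a).U, ∀ᶠ y in 𝓝 x, y ∈ (T a).U ∧ fib hp y ∈ P.U (m x) ∧
      (T a).β (m y) y = P.c (m y) (m x) (fib hp y) * (T a).β (m x) x := fun a x hx => by
    filter_upwards [(T a).opn.mem_nhds hx, ((P.cyf hp).opn _).mem_nhds (hm x),
      (T a).lc _ x ⟨hx, hm x⟩] with y b c e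
    exact ⟨b, c, e ▸ (T a).tr _ _ y b (hm y) c⟩
  have ex : ∀ a, ∀ x ∈ (T a).U, ∀ q : Nd P.V P.δ, q.1 = (p, (T a).θ x) → P.ν q = fib hp x →
      A.e P.a x = A.e P.a p + exp q.1.2 := fun a x _ q e e' => by
    have := (P.ν_e q).2
    rwa [e', show q.1.1 = p from congrArg Prod.fst e] at this
  refine ⟨⟨M, fun a => (T a).U, fun a => (T a).k, fun a => (T a).sub,
    fun a b x => ((T a).β (m x) x)⁻¹ * (T b).β (m x) x,
    ⟨⟨fun a => (T a).opn, cov⟩, fun a b x hx => ?_, fun a b c x _ _ _ => by group⟩,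
    P.a, Dk P p (P.δ / 2), dk_open P p _, ⟨(P.sub p hp).1, mem_ball_self (half_pos P.hδ)⟩,
    fun x hx => ⟨hx.1, mem_ball_zero_iff.1 (P.ball_sub hp (sD x hx))⟩, fun a => (T a).θ, -1,
    by decide, fun a x hx hD => ?_,
    fun a z x => (τ z).E P (m x) (T a).k (A.e (T a).k x) ((T a).β (m x) x),
    fun z x => (τ z).2.2.1 (A.e P.a x), fun z ρ hr hx hR => ?_,
    fun z z' ρ ρ' r h1 h2 φ h hr hr' hx hR f => ?_, fun X _ F W r h1 h2 f hF => ?_⟩⟩
  · filter_upwards [evβ a x hx.1, evβ b x hx.2] with y u v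
    rw [u.2.2, v.2.2]
    group
  · obtain ⟨-, c, q, e, e', k⟩ := (T a).log x hx hD
    have u := ex a x hx q e e'
    rw [show q.1.2 = (T a).θ x from congrArg Prod.snd e] at u
    refine ⟨by rw [u, add_sub_cancel_left], c, fun b hb => ?_⟩
    obtain ⟨-, -, q', f, f', k'⟩ := (T b).log x hb hD
    have v := ex b x hb q' f f'
    rw [show q'.1.2 = (T b).θ x from congrArg Prod.snd f, u, add_right_inj] at v
    obtain ⟨s, hs⟩ := exp_eq_exp_iff_exists_int.1 v
    refine ⟨s, by rw [hs, add_sub_cancel_left], ?_⟩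
    rw [k, k', b_shift P _ s q q' (by rw [e, f, hs]) (f' ▸ hm x)]
    group
  · have a := hτ z ρ hr hx hR
    obtain ⟨t, b, rfl⟩ := ex_fz (hp := hp) hn hr hx hR
    obtain ⟨r, h1, h2, gz⟩ := a.pre.good
    refine ⟨fun x hD => a.det_G (sD x hD), fun i x hi => ⟨a.det (hm x) ((T i).sub x hi) _,
      fun j hj => ⟨1, ?_⟩, fun hD => ?_⟩⟩
    · have e := fun j w hj => b.nat_E a (isoBy_refl (A := A.res r h1 h2) z) S (j := j) (hm x) hj w
      simp only [one_mul, mul_one] at e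
      rw [one_smul, ← e _ _ ((T i).sub x hi), ← e _ _ ((T j).sub x hj),
        b.chg (hm x) ((T i).sub x hi) ((T j).sub x hj), mul_assoc, Dt.E, Dt.E, smul_mul_assoc,
        mul_assoc, ← wv_mul, mul_inv_cancel_left]
    · obtain ⟨e0, -, q, e, e', k⟩ := (T i).log x hi hD
      obtain ⟨c, u⟩ := a.nrm q (m x) (congrArg Prod.fst e) (e' ▸ hm x)
      rw [← ex i x hi q e e', ← k] at u
      refine ⟨c, ?_⟩
      rw [e0, u, gz.cc.one P.a _ (P.ball_res hp h1 (sD x hD)), one_mul]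
  · have a := hτ z ρ hr hx hR
    obtain ⟨s, a1, a2, gz⟩ := hr.1.good
    obtain ⟨s', b1, b2, gz'⟩ := hr'.1.good
    have k := lt_min h1 (lt_min a1 b1)
    have b := hτ z' ρ' hr' (f.x.trans hx) (by
      rw [IsoBy.R (Good.mono gz k ((min_le_right _ _).trans (min_le_left _ _)))
        (Good.mono gz' k ((min_le_right _ _).trans (min_le_right _ _)))
        (IsoBy.mono f k (min_le_left _ _)), hR, mul_zero, zero_mul])
    exact ⟨fun x hD => ⟨1, (a.nat_G b f _ (sD x hD)).trans (one_smul _ _).symm⟩,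
      fun i x hi => ⟨1, (a.nat_E b f S (hm x) ((T i).sub x hi) _).trans (one_smul _ _).symm⟩⟩
  · have a : ∀ t ∈ W, Fz P hp (F t) (τ (F t)) := fun t ht =>
      let ⟨b, c, ρ, e⟩ := hF t ht
      hτ _ ρ e b c
    refine ⟨(cont_G f a).comp (f := fun q : X × C => (q.1, A.e P.a q.2)) (continuousOn_fst.prodMk
      ((A.e P.a).continuousOn.comp continuousOn_snd fun _ hq => hq.2.1))
      fun q hq => ⟨hq.1, sD _ hq.2⟩, fun i ⟨t, x⟩ hq => ?_⟩
    have hi := (T i).sub x hq.2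
    obtain ⟨B, hB, Θ, c, e⟩ := cont_loc f a hn (hm x) hi
    have ev := ((eventually_mem_nhdsWithin (a := (t, x)) (s := W ×ˢ (T i).U)).mono
      fun _ u => u.1).and (((continuousAt_snd (p := (t, x))).eventually
        ((ev_fib hi.1 hB).and (evβ i x hq.2))).filter_mono nhdsWithin_le_nhds)
    have c1 : ContinuousWithinAt (fun q : X × Pc p => Θ q.1 (A.e (T i).k q.2)) (W ×ˢ (T i).U) (t, x) :=
      (c (t, _) ⟨hq.1, mem_of_mem_nhds hB⟩).comp_of_preimage_mem_nhdsWithin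
        (f := fun q : X × Pc p => (q.1, A.e (T i).k q.2)) (x := (t, x))
        (continuousWithinAt_fst.prodMk (ContinuousAt.comp_continuousWithinAt (f := Prod.snd)
          (x := (t, x)) (((A.e _).continuousAt hi.1).comp continuous_subtype_val.continuousAt)
          continuousWithinAt_snd)) (ev.mono fun _ u => ⟨u.1, u.2.1⟩)
    have c2 := (cont_E f a S (hm x) hi ((T i).β (m x) x) t hq.1).comp (f := Prod.fst) (x := (t, x))
      (s := W ×ˢ (T i).U) continuousWithinAt_fst fun _ u => u.1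
    have k : ∀ᶠ q : X × Pc p in 𝓝[W ×ˢ (T i).U] (t, x),
        (τ (F q.1)).E P (m q.2) (T i).k (A.e (T i).k q.2) ((T i).β (m q.2) q.2) =
          Θ q.1 (A.e (T i).k q.2) * (τ (F q.1)).E P (m x) (T i).k (A.e (T i).k x) ((T i).β (m x) x) :=
      ev.mono fun q u => by
        rw [u.2.2.2.2, (a _ u.1).coc (hm _) u.2.2.2.1 ((T i).sub _ u.2.2.1), e _ u.1 _ u.2.1]
    exact (c1.mul c2).congr_of_eventuallyEq k (k.self_of_nhdsWithin hq)

end Vale.Agent.P275NB
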