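import Vale.Agent.P275MO.Props
import Vale.Agent.P275HK.Cal
import Vale.Agent.P275AD.Loc

/-!
# P275, block NB: maps which are parallel up to scalars, local theory
-/

set_option linter.unusedSectionVars false

open scoped Matrix.Norms.Operator Topology ContDiff
open Filter Set Matrix
open Vale.Agent.P281Z.Hm
open Vale.Agent.P275NA (Mn dz db cn ad hk cv br MetAt)
open Vale.Agent.P275HK
open Vale.Agent.P275MO (tf)
open Vale.Agent.P275AD (hx eq_of_ev ev_punct det_inv_ne)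

noncomputable section

namespace Vale.Agent.P275NB

section ext
variable {F : Type} [TopologicalSpace F] {f g : ℂ → F} {w : ℂ}

theorem hx_congr [Zero F] (h : f =ᶠ[𝓝[≠] w] g) : hx f =ᶠ[𝓝 w] hx g :=
  (ev_punct h).mono fun _ e => congrArg lim (map_congr e)

theorem ev_full {p : ℂ → Prop} (h : ∀ᶠ u in 𝓝[≠] w, p u) (h0 : p w) : ∀ᶠ u in 𝓝 w, p u :=
  (eventually_nhdsWithin_iff.1 h).mono fun u a => by
    by_cases e : u = w
    · exact e ▸ h0
    · exact a e

theorem ev_eq [Zero F] [T2Space F] (hf : ContinuousAt f w) (hg : ContinuousAt g w)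
    (h : f =ᶠ[𝓝[≠] w] g) : f =ᶠ[𝓝 w] g := ev_full h (eq_of_ev hf hg h)

end ext

variable {n : ℕ} {P Q P' Q' P'' Q'' K K' : ℂ → Mn n} {w : ℂ}

/-- near `w`, `K` is a smooth isomorphism from `(dz + P, db + Q)` to `(dz + P', db + Q')`, parallel
up to scalars -/
structure Gk (P Q P' Q' K : ℂ → Mn n) (w : ℂ) : Prop where
  sm : ContDiffAt ℝ ∞ K w
  ne : (K w).det ≠ 0
  eq : ∀ᶠ u in 𝓝 w, ∃ α β : ℂ, dz K u + P' u * K u = K u * P u + α • K u ∧
    db K u + Q' u * K u = K u * Q u + β • K u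

theorem two_le : (2 : WithTop ℕ∞) ≤ ∞ := WithTop.coe_le_coe.2 (le_top (a := (2 : ℕ∞)))

theorem Gk.ev (h : Gk P Q P' Q' K w) : ∀ᶠ u in 𝓝 w, ContDiffAt ℝ 2 K u ∧ (K u).det ≠ 0 :=
  (c2_ev (h.sm.of_le two_le)).and ((cd_det h.sm).continuousAt.eventually_ne h.ne)

theorem Gk.congr (h : Gk P Q P' Q' K w) (e : K =ᶠ[𝓝 w] K') : Gk P Q P' Q' K' w := by
  refine ⟨h.sm.congr_of_eventuallyEq e.symm, e.self_of_nhds ▸ h.ne, ?_⟩
  filter_upwards [h.eq, e, wd_congr_ev e 1, wb_congr_ev e 1] with u a b c d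
  rwa [dz, db, ← b, ← c, ← d]

theorem Gk.comp (h : Gk P Q P' Q' K w) (h' : Gk P' Q' P'' Q'' K' w) :
    Gk P Q P'' Q'' (fun u => K' u * K u) w := by
  refine ⟨cd_mul h'.sm h.sm, by rw [det_mul]; exact mul_ne_zero h'.ne h.ne, ?_⟩
  filter_upwards [h.eq, h'.eq, h.ev, h'.ev] with u ⟨α, β, a, b⟩ ⟨α', β', c, d⟩ e f
  have k : ∀ X X' Y Y' Y'' : Mn n, ∀ s t : ℂ, X + Y' * K u = K u * Y + s • K u →
      X' + Y'' * K' u = K' u * Y' + t • K' u → X' * K u + K' u * X + Y'' * (K' u * K u) =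
        K' u * K u * Y + (s + t) • (K' u * K u) := fun X X' Y Y' Y'' s t a c => by
    rw [eq_sub_of_add_eq a, eq_sub_of_add_eq c]
    simp only [Matrix.mul_add, Matrix.add_mul, Matrix.mul_sub, Matrix.sub_mul, Matrix.mul_smul,
      Matrix.smul_mul, Matrix.mul_assoc, add_smul]
    abel
  exact ⟨α + α', β + β', by rw [dz, wd_mul (c2_df f.1) (c2_df e.1)]; exact k _ _ _ _ _ _ _ a c,
    by rw [db, wb_mul (c2_df f.1) (c2_df e.1)]; exact k _ _ _ _ _ _ _ b d⟩

theorem Gk.inv (h : Gk P Q P' Q' K w) : Gk P' Q' P Q (fun u => (K u)⁻¹) w := by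
  refine ⟨cd_inv h.sm h.ne, det_inv_ne h.ne, ?_⟩
  filter_upwards [h.eq, h.ev] with u ⟨α, β, a, b⟩ e
  have k : ∀ X Y Y' : Mn n, ∀ s : ℂ, X + Y' * K u = K u * Y + s • K u →
      -((K u)⁻¹ * X * (K u)⁻¹) + Y * (K u)⁻¹ = (K u)⁻¹ * Y' + (-s) • (K u)⁻¹ :=
    fun X Y Y' s a => by
      rw [eq_sub_of_add_eq a]
      simp only [Matrix.mul_add, Matrix.add_mul, Matrix.mul_sub, Matrix.sub_mul, Matrix.mul_smul,
        Matrix.smul_mul, Matrix.mul_assoc, mul_nonsing_inv _ e.2.isUnit, Matrix.mul_one,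
        nonsing_inv_mul_cancel_left _ _ e.2.isUnit, neg_smul]
      abel
  exact ⟨-α, -β, by rw [dz, wd_minv (c2_df e.1) e.2]; exact k _ _ _ _ a,
    by rw [db, wb_minv (c2_df e.1) e.2]; exact k _ _ _ _ b⟩

theorem gk_const {T : Mn n} (hT : T.det ≠ 0)
    (h : ∀ᶠ u in 𝓝 w, ∃ α β : ℂ, P' u * T = T * P u + α • T ∧ Q' u * T = T * Q u + β • T) :
    Gk P Q P' Q' (fun _ => T) w :=
  ⟨contDiffAt_const, hT, h.mono fun _ a => by simpa only [dz, db, wd_const, wb_const, zero_add]⟩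

theorem Gk.smul (h : Gk P Q P' Q' K w) {t : ℂ} (ht : t ≠ 0) :
    Gk P Q P' Q' (fun u => t • K u) w := by
  have := h.comp (gk_const (P := P') (Q := Q') (P' := P') (Q' := Q') (T := t • 1)
    (by simp [ht]) (Eventually.of_forall fun u => ⟨0, 0, by simp, by simp⟩))
  simpa using this

theorem Gk.mul_const (h : Gk 0 0 P' Q' K w) {T : Mn n} (hT : T.det ≠ 0) :
    Gk 0 0 P' Q' (fun u => K u * T) w :=
  (gk_const (P := 0) (Q := 0) hT (Eventually.of_forall fun _ => ⟨0, 0, by simp, by simp⟩)).comp h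

/-- a parallel endomorphism of the trivial connection with constant determinant is constant -/
theorem Gk.const (h : Gk 0 0 0 0 K w) (hn : 0 < n) {c : ℂ} (d : ∀ᶠ u in 𝓝 w, (K u).det = c) :
    ∀ᶠ u in 𝓝 w, K u = K w := by
  refine ev_const ?_
  filter_upwards [h.eq, h.ev, d.eventually_nhds] with u ⟨α, β, a, b⟩ e f
  simp only [Pi.zero_apply, Matrix.zero_mul, Matrix.mul_zero, add_zero, zero_add] at a b
  have k : ∀ s : ℂ, (K u).det * trace ((K u)⁻¹ * s • K u) = 0 → s • K u = 0 := fun s t => by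
    rw [Matrix.mul_smul, nonsing_inv_mul _ e.2.isUnit, trace_smul, trace_one, Fintype.card_fin,
      smul_eq_mul] at t
    rw [(mul_eq_zero.1 ((mul_eq_zero.1 t).resolve_left e.2)).resolve_right
      (Nat.cast_ne_zero.2 hn.ne'), zero_smul]
  have a' : wd 1 K u = 0 := a.trans (k α (by
    rw [← a, dz, ← wd_det (c2_df e.1) e.2, wd_congr (g := fun _ => c) f, wd_const]))
  have b' : wb 1 K u = 0 := b.trans (k β (by
    rw [← b, db, ← wb_det (c2_df e.1) e.2, wb_congr (g := fun _ => c) f, wb_const]))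
  refine ⟨c2_df e.1, fun v => ?_⟩
  rw [← mul_one v, ← smul_eq_mul, wd_smulv, wb_smulv, a', b', smul_zero, smul_zero]
  exact ⟨rfl, rfl⟩

/-- the trace free part as a linear map -/
def tfL (n : ℕ) : Mn n →L[ℂ] Mn n :=
  LinearMap.toContinuousLinearMap ⟨⟨tf, fun X Y => by
    simp only [tf, trace_add, mul_add, add_smul]; abel⟩, fun c X => by
      simp only [tf, trace_smul, smul_eq_mul, smul_sub, smul_smul, mul_left_comm, RingHom.id_apply]⟩

theorem tfL_apply (X : Mn n) : tfL n X = tf X := rfl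

theorem cont_tf : Continuous (tf : Mn n → Mn n) := (tfL n).continuous

theorem tf_one (hn : 0 < n) (c : ℂ) : tf (c • (1 : Mn n)) = 0 := by
  have : (n : ℂ) ≠ 0 := Nat.cast_ne_zero.2 hn.ne'
  rw [tf, trace_smul, trace_one, Fintype.card_fin, smul_eq_mul, mul_comm c,
    inv_mul_cancel_left₀ this, sub_self]

theorem tf_zero_iff (hn : 0 < n) {X : Mn n} : tf X = 0 ↔ ∃ c : ℂ, X = c • 1 :=
  ⟨fun h => ⟨_, sub_eq_zero.1 h⟩, fun ⟨c, h⟩ => h ▸ tf_one hn c⟩

theorem sc_iff (hn : 0 < n) {X Y : Mn n} (hY : Y.det ≠ 0) :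
    (∃ c : ℂ, X = c • Y) ↔ tf (X * Y⁻¹) = 0 := by
  rw [tf_zero_iff hn]
  refine exists_congr fun c => ⟨fun h => ?_, fun h => ?_⟩
  · rw [h, Matrix.smul_mul, mul_nonsing_inv _ hY.isUnit]
  · rw [← nonsing_inv_mul_cancel_right Y X hY.isUnit, h, Matrix.smul_mul, Matrix.one_mul]

/-- the equations extend over a puncture -/
theorem gk_of_punct (hn : 0 < n) (sm : ContDiffAt ℝ ∞ K w) (ne : (K w).det ≠ 0)
    (hP : ContinuousAt P' w) (hQ : ContinuousAt Q' w)
    (h : ∀ᶠ u in 𝓝[≠] w, ∃ α β : ℂ, dz K u + P' u * K u = α • K u ∧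
      db K u + Q' u * K u = β • K u) : Gk 0 0 P' Q' K w := by
  have k : ∀ X : ℂ → Mn n, ContinuousAt X w → (∀ᶠ u in 𝓝[≠] w, ∃ c : ℂ, X u = c • K u) →
      ∃ c : ℂ, X w = c • K w := fun X a b => (sc_iff hn ne).2 (eq_of_ev
    (f := fun u => tf (X u * (K u)⁻¹)) (g := fun _ => 0) (cont_tf.continuousAt.comp
      (a.mul (cd_inv sm ne).continuousAt)) continuousAt_const (by
        filter_upwards [b, P275AD.pn ((cd_det sm).continuousAt.eventually_ne ne)] with u c d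
        exact (sc_iff hn d).1 c))
  have c1 : ContDiffAt ℝ (0 + 1) K w := sm.of_le (by exact_mod_cast le_top)
  obtain ⟨α, a⟩ := k (fun u => dz K u + P' u * K u) ((cd_dz c1).continuousAt.add
    (hP.mul sm.continuousAt)) (h.mono fun _ ⟨c, _, d, _⟩ => ⟨c, d⟩)
  obtain ⟨β, b⟩ := k (fun u => db K u + Q' u * K u) ((cd_db c1).continuousAt.add
    (hQ.mul sm.continuousAt)) (h.mono fun _ ⟨_, c, _, d⟩ => ⟨c, d⟩)
  refine ⟨sm, ne, (ev_full h ⟨α, β, a, b⟩).mono fun u e => ?_⟩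
  simpa only [Pi.zero_apply, Matrix.mul_zero, zero_add] using e

/-- the curvature is scalar -/
theorem Gk.curv (h : Gk 0 0 P Q K w) (hn : 0 < n) (hP : DifferentiableAt ℝ P w)
    (hQ : DifferentiableAt ℝ Q w) : tf (dz Q w - db P w + (P w * Q w - Q w * P w)) = 0 := by
  have c := h.sm.of_le two_le
  have d := c2_df c
  have e : ∀ᶠ u in 𝓝 w, ∃ α β : ℂ, dz K u * (K u)⁻¹ = α • 1 - P u ∧
      db K u * (K u)⁻¹ = β • 1 - Q u := by
    filter_upwards [h.eq, h.ev] with u ⟨α, β, a, b⟩ f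
    simp only [Pi.zero_apply, Matrix.mul_zero, zero_add] at a b
    refine ⟨α, β, ?_, ?_⟩
    · rw [eq_sub_of_add_eq a, Matrix.sub_mul, Matrix.smul_mul, Matrix.mul_assoc,
        mul_nonsing_inv _ f.2.isUnit, Matrix.mul_one]
    · rw [eq_sub_of_add_eq b, Matrix.sub_mul, Matrix.smul_mul, Matrix.mul_assoc,
        mul_nonsing_inv _ f.2.isUnit, Matrix.mul_one]
  have t : ∀ (s : ℂ) (X : Mn n), tfL n (s • 1 - X) = -tfL n X := fun s X => by
    rw [map_sub, tfL_apply, tf_one hn, zero_sub]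
  have a : tfL n (db (fun u => dz K u * (K u)⁻¹) w) = -tfL n (db P w) := by
    refine (wb_clm (tfL n) (df_mul (df_dz c) (df_inv d h.ne)) 1).symm.trans (Eq.trans ?_
      ((wb_neg _ _ _).trans (congrArg Neg.neg (wb_clm (tfL n) hP 1))))
    exact wb_congr (e.mono fun u ⟨_, _, a, _⟩ => (congrArg (tfL n) a).trans (t _ _)) 1
  have b : tfL n (dz (fun u => db K u * (K u)⁻¹) w) = -tfL n (dz Q w) := by
    refine (wd_clm (tfL n) (df_mul (df_db c) (df_inv d h.ne)) 1).symm.trans (Eq.trans ?_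
      ((wd_neg _ _ _).trans (congrArg Neg.neg (wd_clm (tfL n) hQ 1))))
    exact wd_congr (e.mono fun u ⟨_, _, _, a⟩ => (congrArg (tfL n) a).trans (t _ _)) 1
  obtain ⟨α, β, e1, e2⟩ := e.self_of_nhds
  rw [db, wb_mul (df_dz c) (df_inv d h.ne), wb_minv d h.ne, ← wd_wb_comm c, Matrix.mul_neg,
    ← Matrix.mul_assoc, ← Matrix.mul_assoc, Matrix.mul_assoc (_ * _), e1] at a
  rw [dz, wd_mul (df_db c) (df_inv d h.ne), wd_minv d h.ne, Matrix.mul_neg,
    ← Matrix.mul_assoc, ← Matrix.mul_assoc, Matrix.mul_assoc (_ * _), e2] at b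
  rw [show wb 1 K w * (K w)⁻¹ = _ from e2] at a
  rw [show wd 1 K w * (K w)⁻¹ = _ from e1] at b
  rw [← tfL_apply, map_add, map_sub, ← neg_neg (tfL n (dz Q w)), ← neg_neg (tfL n (db P w)), ← a,
    ← b, ← map_neg, ← map_neg, ← map_sub, ← map_add]
  refine (congrArg _ ?_).trans (map_zero _)
  simp only [Matrix.mul_sub, Matrix.sub_mul, Matrix.mul_smul, Matrix.smul_mul, Matrix.mul_one,
    Matrix.one_mul, smul_sub, smul_smul, mul_comm α β, db]
  abel

/-- the equation of Hitchin -/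
theorem Gk.hitchin {h a : ℂ → Mn n} (k : Gk 0 0 (fun u => cn h u + a u)
    (fun u => ad (h u) (h u) (a u)) K w) (hn : 0 < n) (H : MetAt h w) (ha : AnalyticAt ℂ a w) :
    tf (hk h a w) = 0 := by
  have d := MetAt.df H
  have p := pd_ne (MetAt.pd H)
  have := k.curv hn ((df_cn H).fun_add (hol_df ha)) (df_ad d p d (hol_df ha))
  rw [dz_ad d p d p (hol_df ha), db_hol ha, db, wb_add (df_cn H) (hol_df ha),
    wb_hol ha.differentiableAt, ad_zero] at this
  refine (congrArg tf ?_).trans this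
  simp only [hk, cv, br, Matrix.mul_add, Matrix.add_mul, db]
  abel

end Vale.Agent.P275NB
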