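import Vale.Agent.P275NB.Nah
import Vale.Agent.P275NB.Bet

/-!
# P275, block NB: the bridge
-/

set_option linter.unusedSectionVars false

open scoped Matrix.Norms.Operator Topology ContDiff Manifold
open Filter Set Matrix Metric
open Vale.Agent.P281Z.Hm (wb wb_det wb_smulv hol_of_wb df_det)
open Vale.Agent.P275GC Vale.Agent.P275GC.At Vale.Agent.P275AD
open Vale.Agent.P275NA (Fm Cy Mn dz db cn ad)
open Vale.Agent.P275ST (Marking Pc Higgs IsTriv NAH Rep XB deg)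
open Vale.Agent.P275Z
open Vale.Agent.P275MO (Ob Mod tf pt_surj)
open Vale.Agent.P275HK (pd_det tr_ad)
open Vale.Agent.P275NU (Con PF Cl NuR NU PAR Sl)

noncomputable section

namespace Vale.Agent.P275NB

section
variable {C : Type} [TopologicalSpace C] [ChartedSpace ℂ C] {A : At C} {l : Cy A ℂ} {p : C}
  {n g : ℕ} {c c' : Cy A (Mn n)} {P Q P' Q' K a a' h h' G : Fm A (Mn n)} {u : Fm A ℂ} {x₀ : Pc p}
  {M : Marking g p x₀} {ρ : Fin g × Bool → Mn n}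

theorem mo_iff (k : ∀ (x : Pc p) i, InU A i x → Gk (P i) (Q i) (P' i) (Q' i) (K i) (A.e i x))
    (d : ∀ i, ∀ w ∈ ball (0 : ℂ) A.R, (K i w).det = 1)
    (t : ∀ i j, ∀ w ∈ A.O i j, K i w * c i j w = c' i j w * K j (A.tr i j w)) :
    Mo A M c P Q u ρ ↔ Mo A M c' P' Q' u ρ := by
  have b : ∀ (x : Pc p) i, InU A i x → ∀ᶠ w in 𝓝 (A.e i x), (K i w).det = 1 := fun x i hi =>
    eventually_of_mem (isOpen_ball.mem_nhds (map_src hi.1)) (d i)
  refine ⟨fun m => m.map k (fun x i hi => (b x i hi).mono fun w e => by rw [e, one_mul])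
    fun x i j hi hj => eventually_of_mem (O_nhds (mem_O hi.1 hj.1)) (t i j),
    fun m => m.map (K := fun i w => (K i w)⁻¹) (fun x i hi => (k x i hi).inv)
      (fun x i hi => (b x i hi).mono fun w e => by simp [e])
      fun x i j hi hj => eventually_of_mem (O_nhds (mem_O hi.1 hj.1)) fun w e => ?_⟩
  have u1 : IsUnit (K i w).det := d i w e.1 ▸ isUnit_one
  have u2 : IsUnit (K j (A.tr i j w)).det := d j _ (tr_ball e) ▸ isUnit_one
  rw [← mul_nonsing_inv_cancel_right _ (c' i j w) u2, ← t i j w e, Matrix.mul_assoc,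
    nonsing_inv_mul_cancel_left _ _ u1]

theorem mo_congr (k : ∀ (x : Pc p) i, InU A i x → ∀ᶠ w in 𝓝 (A.e i x),
    ∃ α : ℂ, P' i w = P i w + α • 1 ∧ Q' i w = Q i w) : Mo A M c P Q u ρ ↔ Mo A M c P' Q' u ρ :=
  mo_iff (K := fun _ _ => 1) (fun x i hi => gk_const (by simp) ((k x i hi).mono
    fun w ⟨α, e1, e2⟩ => ⟨α, 0, by simp [e1], by simp [e2]⟩)) (fun _ _ _ => det_one)
    fun _ _ _ _ => by simp

theorem tf_eq (X : Mn n) : X = tf X + ((n : ℂ)⁻¹ * X.trace) • 1 := (sub_add_cancel _ _).symm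

theorem mo_par (par : PAR A) (hn : 0 < n) (k : Con A l 0 c a) (H : A.MtM ∞ c h) (H' : A.MtM ∞ c h')
    (f : PF A a h) (f' : PF A a h') :
    Mo A M c (fun i w => cn (h i) w + a i w) (fun i w => ad (h i w) (h i w) (a i w)) u ρ ↔
      Mo A M c (fun i w => cn (h' i) w + a i w) (fun i w => ad (h' i w) (h' i w) (a i w)) u ρ := by
  refine mo_congr fun x i hi => eventually_of_mem (isOpen_ball.mem_nhds (map_src hi.1)) fun w e => ?_
  obtain ⟨e1, e2⟩ := par n l c c a h a h' (fun _ _ => 1) hn k k H H' f f'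
    ⟨fun _ => differentiableOn_const _, fun _ _ _ _ => by simp, fun _ _ _ => by simp⟩ i w e
  simp only [dz, P281Z.Hm.wd_const, zero_add, Matrix.mul_one, Matrix.one_mul] at e1 e2
  refine ⟨(n : ℂ)⁻¹ * (cn (h' i) w).trace - (n : ℂ)⁻¹ * (cn (h i) w).trace, ?_, e2⟩
  conv_lhs => rw [tf_eq (cn (h' i) w), e1]
  rw [tf, sub_smul]
  abel

theorem mo_rel [T2Space C] [ConnectedSpace C] (hn : 0 < n) (k : Con A l 0 c a) (k' : Con A l 1 c' a')
    (H : A.MtM ∞ c h) (r : P275NU.Rel A 1 c a h G c' a') : Mo A M c' a' 0 u ρ ↔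
      Mo A M c (fun i w => cn (h i) w + a i w) (fun i w => ad (h i w) (h i w) (a i w)) u ρ := by
  have uf : A.Fn fun i w => (G i w).det := fun i j w e => by
    have := congrArg det (r.tr i j w e)
    rw [Matrix.det_mul, Matrix.det_mul, k.det i j w e, k'.det i j w e, mul_comm] at this
    exact (mul_right_cancel₀ (k.det i j w e ▸ cc_det k.cc e) this).symm
  have uh : A.Hl fun i w => (G i w).det := fun i w e => by
    have d := (r.sm.at e i).differentiableAt (by simp)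
    have b := eq_neg_of_add_eq_zero_left (r.db i w e)
    refine (hol_of_wb (df_det d) fun v => ?_).differentiableWithinAt
    rw [← mul_one v, ← smul_eq_mul, wb_smulv, wb_det d (r.ne i w e), ← db, b, one_smul,
      Matrix.mul_neg, trace_neg, trace_mul_comm, mul_nonsing_inv_cancel_right _ _ (r.ne i w e).isUnit,
      tr_ad (pd_det (H.pos i w e)), k.tr i w e, map_zero, neg_zero, mul_zero, smul_zero]
  obtain ⟨i0, h0, -⟩ := A.cov x₀
  have uc := fun j w hw => uf.hol_const1 uh (map_src h0) i0 j (w := w) hw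
  have u0 := r.ne i0 _ (map_src h0)
  obtain ⟨t, ht⟩ := IsAlgClosed.exists_pow_nat_eq (G i0 (A.e i0 x₀)).det⁻¹ hn
  have t0 : t ≠ 0 := fun a => inv_ne_zero u0 (by rw [← ht, a, zero_pow hn.ne'])
  refine mo_iff (K := fun i w => t • G i w) (fun x i hi => Gk.smul ⟨r.sm.at (map_src hi.1) i,
    r.ne i _ (map_src hi.1), eventually_of_mem (isOpen_ball.mem_nhds (map_src hi.1)) fun w e =>
      ⟨(n : ℂ)⁻¹ * (cn (h i) w).trace, 0, ?_, ?_⟩⟩ t0) (fun i w e => ?_) fun i j w e => ?_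
  · rw [← r.dz i w e, one_smul, one_smul, tf]
    simp only [Matrix.add_mul, Matrix.sub_mul, Matrix.smul_mul, Matrix.one_mul]
    abel
  · simpa using r.db i w e
  · rw [det_smul, Fintype.card_fin, ht, uc i w e, inv_mul_cancel₀ u0]
  · rw [Matrix.smul_mul, Matrix.mul_smul, r.tr i j w e]

omit [ChartedSpace ℂ C] in
theorem con_mono {r r' : ℝ} {h1 : 1 < r} {h2 : r ≤ A.R} {lam : ℂ} (k : Con (A.res r h1 h2) l lam c a)
    (h1' : 1 < r') (h3 : r' ≤ r) : Con (A.res r' h1' (h3.trans h2)) l lam c a :=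
  have : Con ((A.res r h1 h2).res r' h1' h3) l lam c a :=
    ⟨k.cc.res, fun i j w e => k.det i j w (res_O.1 e).1, k.hol.res,
      fun i w e => k.tr i w (ball_subset_ball h3 e), fun i j w e => k.law i j w (res_O.1 e).1⟩
  (P275MB.rr h1' h3 fun B => Con (B.at h1') l lam c a).1 this

theorem ad_of_cl {D : C →₀ ℤ} {E : Higgs C n D} {z : Ob A l (tauX n)} {r : ℝ} {h1 : 1 < r}
    {h2 : r ≤ A.R} (hz : Rp A E z.1) (k : Cl z.pt r h1 h2 c a) :
    ∃ (r' : ℝ) (h1' : 1 < r') (h3 : r' ≤ r) (σ : Fm A (Mn n)),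
      Ad (A.res r' h1' (h3.trans h2)) E c a σ := by
  obtain ⟨k, z', e, gd', rfl, ag'⟩ := k
  obtain ⟨h0, r₁, a1, b1, a₁, σ, ad, ag⟩ := hz
  obtain ⟨r₂, a2, b2, gd⟩ := P275MB.Ob.ex z
  have m := lt_min h1 (lt_min a1 a2)
  have l1 := (min_le_right r _).trans (min_le_left r₁ r₂)
  have l0 := min_le_left r (min r₁ r₂)
  have ad := ad.mono m l1
  have k := con_mono k m l0
  obtain ⟨φ, _, -, f⟩ := (P275MB.pt_eq_iff' (P275MB.Good.mono gd' m l0)
    (P275MB.Good.mono gd m ((min_le_right r _).trans (min_le_right r₁ r₂)))).1 e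
  exact ⟨_, m, l0, _, ad.iso k.cc k.hol ((Agr.hom_iff (A := A.res _ m (l0.trans h2))
    (fun i w b => (ag' i w ⟨ball_subset_ball l0 b.1, b.2⟩).symm)
    (fun i w b => ag i w ⟨ball_subset_ball l1 b.1, b.2⟩) k.hol ad.hol (f.lam.symm.trans h0) h0
    f.x).1 f.toHom) f.det⟩

end

theorem nah_iff {S : Sit} (T : S.Atl) (R : S.RH T) (par : ∀ A : At S.C, PAR A)
    {μ : XB S.g S.n (deg S.D) → T.M (tauX S.n)} (m1 : Function.Injective μ)
    (m3 : ∀ z : Ob T.A T.l (tauX S.n), z.1.lam = 1 → z.1.x = S.p →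
      ∃ ρ : Rep S.g S.n (deg S.D), R.Rel R.i0 z.1 ρ.1 ∧ μ ρ.pt = z.pt)
    {E : Higgs S.C S.n S.D} {z : Ob T.A T.l (tauX S.n)} (hx : z.1.x = S.p) (hz : Rp T.A E z.1)
    {y : T.M (tauX S.n)} (hy : y.lam = 1) (nu : NuR z.pt y) (ρ : Rep S.g S.n (deg S.D)) :
    NAH S.M S.ℓ E ρ ↔ μ ρ.pt = y := by
  have hn : 0 < S.n := two_pos.trans_le S.adm.hn
  obtain ⟨-, ex, r, h1, h2, c, c', a, h, G, a', k, ⟨k', z', rfl, -, rfl, ag⟩, H, f, rel⟩ := nu
  have ex : z'.1.x = S.p := ex.trans hx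
  obtain ⟨r', h1', h3, σ, ad⟩ := ad_of_cl hz k
  obtain ⟨ρ', b, e⟩ := m3 z' hy ex
  have k := k.1
  rw [show z.pt.lam = 0 from hz.1] at k
  rw [hy] at k' rel
  have b := (mon_iff fun x i hi => (trv_spec T.ok T.dv S.triv (map_src hi.1)
    ((pt_e hi).trans_ne x.2)).2).1 (R.mon z' ρ'.1 ex b)
  have b := mo_res.1 ((mo_rel hn k k' H rel).1 ((mo_congr (A := T.A.res r h1 h2) (p := S.p)
    (P := z'.1.a) (P' := a') (Q' := 0) fun x i hi => (off_nhds (x := z'.1.x) ⟨map_src hi.1,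
      (pt_e hi).trans_ne (fun e => x.2 (e.trans ex))⟩).mono fun w e =>
        ⟨0, by rw [zero_smul, add_zero, ag i w e], rfl⟩).1 (mo_res.2 b)))
  have k := con_mono k h1' h3
  have H' := H.res (h1 := h1') (h2 := h3)
  have H := (P275MB.rr h1' h3 fun B => (B.at h1').MtM ∞ c h).1 H'
  rw [← e, m1.eq_iff, eq_comm, rep_pt_eq]
  refine ⟨fun N => ?_, fun cj => ?_⟩
  · obtain ⟨h', H', f', m⟩ := mo_of_nah T.ok.res ad T.dv.res k.det hn N
    obtain ⟨P, d, q⟩ := b.conj (mo_res.1 ((mo_par (par _) hn k H H'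
      (fun i w e => f i w (ball_subset_ball h3 e)) f').2 m)) hn
    exact cj_conj hn (d ▸ one_ne_zero) q
  · obtain ⟨P, d, q⟩ := conj_cj cj
    exact nah_of_mo T.ok.res ad T.dv.res k.det S.triv H (mo_res.2 (b.act d q))

/-- **the bridge** -/
theorem brg (h1 : ATL) (h2 : RHF) (h3 : RPA) (h4 : ∀ (S : Sit) (T : S.Atl), NU T.A S.n T.l)
    (h5 : ∀ (S : Sit) (A : At S.C), PAR A) : BRG := fun S => by
  obtain ⟨T⟩ := h1 S
  obtain ⟨R⟩ := h2 S T
  obtain ⟨Sg, ν, n1, n2, n3⟩ := h4 S T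
  obtain ⟨μ, m1, m2, m3⟩ := exists_mu (two_pos.trans_le S.adm.hn) S.adm.cop R.toRHD R.hp
  let κ : XB S.g S.n (deg S.D) → Sl T.A S.n T.l 0 := fun x => ν.symm ⟨μ x, (m2 x).1⟩
  have hκ : Topology.IsEmbedding κ := ν.symm.isEmbedding.comp
    (m1.codRestrict {y | y.lam = 1} fun x => (m2 x).1)
  have nu : ∀ y, NuR y.1 (ν y).1 := fun y => ((n1 1 y _).1 (n3 y)).2
  have νκ : ∀ x, (ν (κ x)).1 = μ x := fun x => congrArg Subtype.val (ν.apply_symm_apply _)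
  have κx : ∀ x, (κ x).1.x = S.p := fun x => (nu _).2.1.symm.trans (νκ x ▸ (m2 x).2)
  have κe : ∀ x y, μ x = (ν y).1 → κ x = y := fun x y e => ν.symm_apply_eq.2 (Subtype.ext e)
  have s0 : ∀ x, Sg ((((0 : unitInterval) : ℝ) : ℂ), κ x) = (κ x).1 := fun x => by
    simpa using n2 (κ x)
  refine ⟨⟨T, R, ⟨fun q => Sg (((q.1 : ℝ) : ℂ), κ q.2), Sg.continuous.comp
    ((Complex.continuous_ofReal.comp (continuous_subtype_val.comp continuous_fst)).prodMk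
      (hκ.continuous.comp continuous_snd))⟩, fun t x => ((n1 _ _ _).1 rfl).1,
    fun t x => ((n1 _ _ _).1 rfl).2.2.1.trans (κx x), ?_, fun y a b => ?_, fun ρ => ?_,
    fun E ρ => ⟨fun N => ?_, fun ⟨z, a, b⟩ => ?_⟩⟩⟩
  · exact (congrArg Topology.IsEmbedding (funext s0)).mpr (Topology.IsEmbedding.subtypeVal.comp hκ)
  · obtain ⟨z, hz⟩ := pt_surj (ν ⟨y, a⟩).1
    obtain ⟨ρ, -, e⟩ := m3 z ((congrArg Mod.lam hz).trans (ν _).2)
      ((congrArg Mod.x hz).trans ((nu _).2.1.trans b))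
    exact ⟨ρ.pt, (s0 _).trans (congrArg Subtype.val (κe _ _ (e.trans hz)))⟩
  · obtain ⟨z, hz⟩ := pt_surj (μ ρ.pt)
    obtain ⟨ρ', a, e⟩ := m3 z ((congrArg Mod.lam hz).trans (m2 _).1)
      ((congrArg Mod.x hz).trans (m2 _).2)
    obtain ⟨h, d, q⟩ := conj_cj (rep_pt_eq.1 (m1.injective (e.trans hz)))
    have d : h.det ≠ 0 := d ▸ one_ne_zero
    obtain ⟨⟨r, b1, b2, gd, st⟩, hR⟩ := z.2
    refine ⟨⟨z.1.act h, ⟨r, b1, b2, P275MB.Good.act gd d, st⟩, ?_⟩, ?_, R.act _ _ _ _ h a d q⟩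
    · change h⁻¹ * z.1.R * h ∈ ⊥
      rw [(Submodule.mem_bot ℂ).1 hR, Matrix.mul_zero, Matrix.zero_mul]
      exact Submodule.zero_mem _
    · refine Eq.trans (P275MB.pt_eq_iff.2 ⟨r, b1, b2, _, h, trivial,
        P275MB.isoBy_act (A := T.A.res r b1 b2) z.1 h⟩) (hz.trans ?_)
      simpa [νκ] using (n3 (κ ρ.pt)).symm
  · obtain ⟨z, a, b⟩ := (h3 S T).1 E
    exact ⟨z, ((s0 _).trans (congrArg Subtype.val (κe _ ⟨z.pt, b.1⟩ ((nah_iff T R (h5 S)
      m1.injective m3 a b (ν _).2 (nu ⟨z.pt, b.1⟩) ρ).1 N)))).symm, b⟩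
  · have a : z.pt = (κ ρ.pt).1 := a.trans (s0 _)
    exact (nah_iff T R (h5 S) m1.injective m3 ((congrArg Mod.x a).trans (κx _)) b (ν _).2
      (a ▸ nu (κ ρ.pt)) ρ).2 (νκ _).symm

end Vale.Agent.P275NB
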