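import Vale.Agent.P275NB.Loc
import Vale.Agent.P275Z.Brg
import Vale.Agent.P275RH.Hol

/-!
# P275, block NB: multivalued frames, uniqueness of the monodromy
-/

set_option linter.unusedSectionVars false

open scoped Matrix.Norms.Operator Topology ContDiff
open Filter Set Matrix unitInterval
open Vale.Agent.P275GC
open Vale.Agent.P275NA (Fm Cy Mn dz db)
open Vale.Agent.P275RH (PQ)
open Vale.Agent.P275ST (Marking Pc)
open Vale.Agent.P275Z (InU Mon Tup)
open Vale.Agent.P275MO (Dat)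

noncomputable section

namespace Vale.Agent.P275NB

/-- locally constant functions on the universal cover are constant -/
theorem path_const {X Y : Type} [TopologicalSpace X] {x₀ x : X} (k : ∀ x, PQ x₀ x → Y)
    (h : ∀ x γ, ∃ V ∈ 𝓝 x, ∀ y (δ : Path x y), (∀ t, δ t ∈ V) → k y (γ.trans (.mk δ)) = k x γ)
    (γ : PQ x₀ x) : k x γ = k x₀ (.refl x₀) := by
  obtain ⟨γ, rfl⟩ := Path.Homotopic.Quotient.mk_surjective γ
  obtain ⟨f, rfl, rfl⟩ := γ
  set γ : Path (f 0) (f 1) := ⟨f, rfl, rfl⟩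
  have := ((IsLocallyConstant.iff_eventually_eq fun t : I => k _ (.mk (γ.subpath 0 t))).2 fun s => by
    obtain ⟨V, hV, a⟩ := h _ (.mk (γ.subpath 0 s))
    obtain ⟨ε, h0, h1⟩ := Metric.mem_nhds_iff.1 (γ.continuous.continuousAt hV)
    filter_upwards [Metric.ball_mem_nhds s h0] with t ht
    have h2 : uIcc s t ⊆ Metric.ball s ε := fun u hu => by
      have h3 : |(t : ℝ) - s| < ε := ht
      have h4 : (u : ℝ) ∈ uIcc (s : ℝ) t := by
        rcases mem_uIcc.1 hu with h4 | h4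
        exacts [mem_uIcc.2 (.inl h4), mem_uIcc.2 (.inr h4)]
      exact (abs_sub_left_of_mem_uIcc h4).trans_lt h3
    refine Eq.trans (congrArg (k _) ?_) (a _ (γ.subpath s t) fun u => ?_)
    · exact (Path.Homotopic.Quotient.eq.2 ⟨Path.Homotopy.subpathTransSubpath γ 0 s t⟩).symm
    · obtain ⟨v, hv, e⟩ := (γ.range_subpath s t).subset ⟨u, rfl⟩
      exact e ▸ h1 (h2 hv)).apply_eq_of_preconnectedSpace 1 0
  rw [Path.subpath_zero_one, Path.subpath_self] at this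
  exact this

variable {C : Type} [TopologicalSpace C] {g n : ℕ} {p : C} {x₀ : Pc p}

/-- a multivalued frame with determinant `u`, parallel up to scalars -/
structure MF (A : At C) (c : Cy A (Mn n)) (P Q : Fm A (Mn n)) (u : Fm A ℂ)
    (F : ∀ x : Pc p, PQ x₀ x → Fm A (Mn n)) : Prop where
  pf : ∀ (x : Pc p) γ i, InU A i x → Gk 0 0 (P i) (Q i) (F x γ i) (A.e i x)
  det : ∀ (x : Pc p) γ i, InU A i x → ∀ᶠ w in 𝓝 (A.e i x), (F x γ i w).det = u i w
  tr : ∀ (x : Pc p) γ i j, InU A i x → InU A j x →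
    ∀ᶠ w in 𝓝 (A.e i x), F x γ i w = c i j w * F x γ j (A.tr i j w)
  con : ∀ (x : Pc p) γ i, InU A i x → ∃ V ∈ 𝓝 x, ∀ (y : Pc p) (δ : Path x y), (∀ t, δ t ∈ V) →
    InU A i y → F y (γ.trans (.mk δ)) i =ᶠ[𝓝 (A.e i y)] F x γ i

variable {A : At C} {c c' : Cy A (Mn n)} {P Q P' Q' K : Fm A (Mn n)} {u u' : Fm A ℂ}
  {F F' : ∀ x : Pc p, PQ x₀ x → Fm A (Mn n)} {i : Fin A.N}

theorem tend_e {x : Pc p} (h : InU A i x) :
    Tendsto (fun y : Pc p => A.e i y) (𝓝 x) (𝓝 (A.e i x)) :=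
  ((A.e i).continuousAt h.1).comp continuous_subtype_val.continuousAt

theorem ev_InU {x : Pc p} (h : InU A i x) : ∀ᶠ y : Pc p in 𝓝 x, InU A i y :=
  (continuous_subtype_val.continuousAt.eventually ((A.e i).open_source.mem_nhds h.1)).and
    ((tend_e h).norm.eventually (eventually_lt_nhds h.2))

theorem MF.uniq (h : MF A c P Q u F) (h' : MF A c P Q u F') (hn : 0 < n) :
    ∃ T : Mn n, T.det = 1 ∧ ∀ (x : Pc p) γ i, InU A i x →
      ∀ᶠ w in 𝓝 (A.e i x), F' x γ i w = F x γ i w * T := by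
  let k : ∀ x : Pc p, PQ x₀ x → Fin A.N → Mn n := fun x γ i =>
    (F x γ i (A.e i x))⁻¹ * F' x γ i (A.e i x)
  have d : ∀ (x : Pc p) γ i, InU A i x →
      ∀ᶠ w in 𝓝 (A.e i x), ((F x γ i w)⁻¹ * F' x γ i w).det = 1 := fun x γ i a => by
    filter_upwards [h.det x γ i a, h'.det x γ i a, (h.pf x γ i a).ev] with w b b' e
    rw [det_mul, b', ← b, det_nonsing_inv_mul_det _ e.2.isUnit]
  have l : ∀ (x : Pc p) γ i, InU A i x →
      ∀ᶠ w in 𝓝 (A.e i x), (F x γ i w)⁻¹ * F' x γ i w = k x γ i := fun x γ i a =>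
    ((h'.pf x γ i a).comp (h.pf x γ i a).inv).const hn (d x γ i a)
  have t : ∀ (x : Pc p) γ i j, InU A i x → InU A j x → k x γ i = k x γ j := fun x γ i j a b => by
    have e := (h.tr x γ i j a b).self_of_nhds
    have e' := (h'.tr x γ i j a b).self_of_nhds
    have f := (h.pf x γ i a).ne
    rw [At.tr_e a.1] at e e'
    rw [e, det_mul] at f
    simp only [k]
    rw [e, e', Matrix.mul_inv_rev, Matrix.mul_assoc,
      nonsing_inv_mul_cancel_left _ _ (left_ne_zero_of_mul f).isUnit]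
  choose ix hx using fun x : Pc p => A.cov x
  have m := fun (x : Pc p) γ => path_const (fun x γ => k x γ (ix x)) (fun x γ => by
    obtain ⟨V, a, b⟩ := h.con x γ _ (hx x)
    obtain ⟨V', a', b'⟩ := h'.con x γ _ (hx x)
    refine ⟨_, inter_mem (inter_mem a a') ((ev_InU (hx x)).and
      ((tend_e (hx x)).eventually (l x γ _ (hx x)))), fun y δ e => ?_⟩
    have f := (δ.target ▸ e 1).2
    rw [t y _ _ _ (hx y) f.1, ← f.2]
    simp only [k]
    rw [(b y δ (fun s => (e s).1.1) f.1).self_of_nhds,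
      (b' y δ (fun s => (e s).1.2) f.1).self_of_nhds]) (x := x) γ
  refine ⟨k x₀ (.refl x₀) (ix x₀), (d _ _ _ (hx x₀)).self_of_nhds, fun x γ i a => ?_⟩
  filter_upwards [l x γ i a, (h.pf x γ i a).ev] with w b e
  rw [← m x γ, t x γ _ _ (hx x) a, ← b, mul_nonsing_inv_cancel_left _ _ e.2.isUnit]

variable [ChartedSpace ℂ C]

/-- `ρ` is the monodromy along the loops of the marking -/
def Mo (A : At C) (M : Marking g p x₀) (c : Cy A (Mn n)) (P Q : Fm A (Mn n)) (u : Fm A ℂ)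
    (ρ : Fin g × Bool → Mn n) : Prop :=
  ∃ F : ∀ x : Pc p, PQ x₀ x → Fm A (Mn n), MF A c P Q u F ∧ ∀ s i, InU A i x₀ →
    ∀ᶠ w in 𝓝 (A.e i x₀), F x₀ (M.e (FreeGroup.of s)).toPath i w = F x₀ (.refl x₀) i w * ρ s

variable {M : Marking g p x₀} {ρ ρ' : Fin g × Bool → Mn n}

theorem Mo.conj (h : Mo A M c P Q u ρ) (h' : Mo A M c P Q u ρ') (hn : 0 < n) :
    ∃ T : Mn n, T.det = 1 ∧ ∀ s, ρ' s = T⁻¹ * ρ s * T := by
  obtain ⟨F, a, b⟩ := h
  obtain ⟨F', a', b'⟩ := h'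
  obtain ⟨T, d, e⟩ := a.uniq a' hn
  obtain ⟨i, f⟩ := A.cov x₀
  refine ⟨T, d, fun s => ?_⟩
  have := (b' s i f).self_of_nhds
  rw [(e _ _ i f).self_of_nhds, (e _ _ i f).self_of_nhds, (b s i f).self_of_nhds, Matrix.mul_assoc,
    Matrix.mul_assoc] at this
  have v : IsUnit T.det := d ▸ isUnit_one
  rw [Matrix.mul_assoc, ← nonsing_inv_mul_cancel_left _ (ρ s * T) (a.pf _ (.refl _) i f).ne.isUnit,
    this, nonsing_inv_mul_cancel_left _ _ (a.pf _ (.refl _) i f).ne.isUnit,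
    nonsing_inv_mul_cancel_left _ _ v]

theorem Mo.act (h : Mo A M c P Q u ρ) {T : Mn n} (d : T.det = 1) (e : ∀ s, ρ' s = T⁻¹ * ρ s * T) :
    Mo A M c P Q u ρ' := by
  obtain ⟨F, a, b⟩ := h
  have v : IsUnit T.det := d ▸ isUnit_one
  refine ⟨fun x γ i w => F x γ i w * T, ⟨fun x γ i f => (a.pf x γ i f).mul_const v.ne_zero,
    fun x γ i f => (a.det x γ i f).mono fun w k => by rw [det_mul, d, mul_one, k],
    fun x γ i j f f' => (a.tr x γ i j f f').mono fun w k => by rw [k, Matrix.mul_assoc],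
    fun x γ i f => (a.con x γ i f).imp fun V k => ⟨k.1, fun y δ s t =>
      (k.2 y δ s t).mono fun w m => congrArg (· * T) m⟩⟩,
    fun s i f => (b s i f).mono fun w k => ?_⟩
  beta_reduce
  rw [k, e, Matrix.mul_assoc, Matrix.mul_assoc, Matrix.mul_assoc,
    mul_nonsing_inv_cancel_left _ _ v]

theorem Mo.map (h : Mo A M c P Q u ρ)
    (k : ∀ (x : Pc p) i, InU A i x → Gk (P i) (Q i) (P' i) (Q' i) (K i) (A.e i x))
    (d : ∀ (x : Pc p) i, InU A i x → ∀ᶠ w in 𝓝 (A.e i x), (K i w).det * u i w = u' i w)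
    (t : ∀ (x : Pc p) i j, InU A i x → InU A j x →
      ∀ᶠ w in 𝓝 (A.e i x), K i w * c i j w = c' i j w * K j (A.tr i j w)) :
    Mo A M c' P' Q' u' ρ := by
  obtain ⟨F, a, b⟩ := h
  refine ⟨fun x γ i w => K i w * F x γ i w, ⟨fun x γ i f => (a.pf x γ i f).comp (k x i f),
    fun x γ i f => ((a.det x γ i f).and (d x i f)).mono fun w m => by rw [det_mul, m.1, m.2],
    fun x γ i j f f' => ((a.tr x γ i j f f').and (t x i j f f')).mono fun w m => by
      rw [m.1, ← Matrix.mul_assoc, m.2, Matrix.mul_assoc],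
    fun x γ i f => (a.con x γ i f).imp fun V k => ⟨k.1, fun y δ s t =>
      (k.2 y δ s t).mono fun w m => congrArg (K i w * ·) m⟩⟩,
    fun s i f => (b s i f).mono fun w k =>
      (congrArg (K i w * ·) k).trans (Matrix.mul_assoc _ _ _).symm⟩

theorem mon_iff {z : Dat C A.N n} {ρ : Tup g n}
    (hu : ∀ (x : Pc p) i, InU A i x → u i (A.e i x) ≠ 0) :
    Mon A M u z ρ ↔ Mo A M z.g z.a 0 u fun s => (ρ s).1 := by
  refine exists_congr fun F => ⟨fun ⟨a, b, e⟩ => ⟨⟨fun x γ i f => ?_,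
    fun x γ i f => (a x γ i f).2.1.mono fun _ k => k.1, fun x γ i j f => (a x γ i f).2.2 j, b⟩, e⟩,
    fun ⟨a, e⟩ => ⟨fun x γ i f => ⟨(a.pf x γ i f).sm, ?_, fun j => a.tr x γ i j f⟩, a.con, e⟩⟩
  · obtain ⟨s, t, -⟩ := a x γ i f
    refine ⟨s, t.self_of_nhds.1 ▸ hu x i f, t.mono fun w k => ?_⟩
    simpa only [Pi.zero_apply, Matrix.zero_mul, Matrix.mul_zero, add_zero, zero_add] using k.2
  · filter_upwards [a.det x γ i f, (a.pf x γ i f).eq] with w s t
    refine ⟨s, ?_⟩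
    simpa only [Pi.zero_apply, Matrix.zero_mul, Matrix.mul_zero, add_zero, zero_add] using t

omit [ChartedSpace ℂ C] in
theorem inU_res {r : ℝ} {h1 : 1 < r} {h2 : r ≤ A.R} {x : C} :
    InU (A.res r h1 h2) i x ↔ InU A i x :=
  ⟨fun a => ⟨a.1.1, a.2⟩, fun a => ⟨⟨a.1, mem_ball_zero_iff.2 (a.2.trans h1)⟩, a.2⟩⟩

theorem mo_res {r : ℝ} {h1 : 1 < r} {h2 : r ≤ A.R} :
    Mo (A.res r h1 h2) M c P Q u ρ ↔ Mo A M c P Q u ρ :=
  exists_congr fun _ => ⟨fun ⟨a, b⟩ => ⟨⟨fun x γ i f => a.pf x γ i (inU_res.2 f),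
    fun x γ i f => a.det x γ i (inU_res.2 f),
    fun x γ i j f f' => a.tr x γ i j (inU_res.2 f) (inU_res.2 f'),
    fun x γ i f => (a.con x γ i (inU_res.2 f)).imp fun _ k => ⟨k.1, fun y δ s t =>
      k.2 y δ s (inU_res.2 t)⟩⟩, fun s i f => b s i (inU_res.2 f)⟩,
    fun ⟨a, b⟩ => ⟨⟨fun x γ i f => a.pf x γ i (inU_res.1 f),
    fun x γ i f => a.det x γ i (inU_res.1 f),
    fun x γ i j f f' => a.tr x γ i j (inU_res.1 f) (inU_res.1 f'),
    fun x γ i f => (a.con x γ i (inU_res.1 f)).imp fun _ k => ⟨k.1, fun y δ s t =>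
      k.2 y δ s (inU_res.1 t)⟩⟩, fun s i f => b s i (inU_res.1 f)⟩⟩

end Vale.Agent.P275NB
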