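import Vale.Agent.P275NB.Mon
import Vale.Agent.P275RL.Rd
import Vale.Agent.P275AD.Trv

/-!
# P275, block MONR: the monodromy relation at `p` gives the monodromy for the marking
-/

set_option linter.unusedSectionVars false

open scoped Matrix.Norms.Operator Topology ContDiff
open Filter Set Matrix
open Vale.Agent.P281Z.Hm
open Vale.Agent.P275GC
open Vale.Agent.P275NA (Fm Cy Mn dz db)
open Vale.Agent.P275HK
open Vale.Agent.P275RH (PQ hol)
open Vale.Agent.P275ST (Marking Pc)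
open Vale.Agent.P275Z (InU Mon Tup wv)
open Vale.Agent.P275MO (Dat off)
open Vale.Agent.P275RL (PH PF Loc Frm fib MONR)

noncomputable section

namespace Vale.Agent.P275NB

variable {n g : ℕ} {w : ℂ}

/-- a continuous root of a smooth function without zero is smooth -/
theorem root_sm {s f : ℂ → ℂ} (hn : 0 < n) (hs : ContinuousAt s w) (hf : ContDiffAt ℝ ∞ f w)
    (h0 : f w ≠ 0) (e : ∀ᶠ v in 𝓝 w, s v ^ n = f v) : ContDiffAt ℝ ∞ s w := by
  have n0 : (n : ℂ) ≠ 0 := Nat.cast_ne_zero.2 hn.ne'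
  have s0 : s w ≠ 0 := fun a => h0 (by rw [← e.self_of_nhds, a, zero_pow hn.ne'])
  have q : ContDiffAt ℝ ∞ (fun v => f v / f w) w := hf.div_const _
  have l : ContDiffAt ℝ ∞ (fun v => Complex.log (f v / f w)) w :=
    ((Complex.contDiffAt_log (by rw [div_self h0]; exact Complex.one_mem_slitPlane)).restrict_scalars
      ℝ).comp w q
  have t : ContDiffAt ℝ ∞ (fun v => s w * Complex.exp (Complex.log (f v / f w) / n)) w :=
    contDiffAt_const.mul (l.div_const _).cexp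
  refine t.congr_of_eventuallyEq ?_
  have c : ContinuousAt (fun v => ∑ i ∈ Finset.range n,
      s v ^ i * (s w * Complex.exp (Complex.log (f v / f w) / n)) ^ (n - 1 - i)) w :=
    tendsto_finsetSum _ fun i _ => (hs.pow i).mul (t.continuousAt.pow _)
  filter_upwards [e, hf.continuousAt.eventually_ne h0, c.eventually_ne (y := 0) (by
    rw [div_self h0, Complex.log_one, zero_div, Complex.exp_zero, mul_one, geom_sum₂_self]
    exact mul_ne_zero n0 (pow_ne_zero _ s0))] with v a b d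
  refine sub_eq_zero.1 ((mul_eq_zero.1 ?_).resolve_left d)
  rw [geom_sum₂_mul, mul_pow, ← Complex.exp_nat_mul, mul_div_cancel₀ _ n0,
    Complex.exp_log (div_ne_zero b h0), a, e.self_of_nhds, mul_div_cancel₀ _ h0, sub_self]

theorem gk_pf {a F : ℂ → Mn n} {u : ℂ → ℂ} (hn : 0 < n) (h : PF a F w) (hu : ContDiffAt ℝ ∞ u w)
    (h0 : u w ≠ 0) (d : ∀ᶠ v in 𝓝 w, (F v).det = u v) : Gk 0 0 a 0 F w := by
  obtain ⟨s, Φ, hs, hΦ, e⟩ := h
  have k : Gk 0 0 a 0 Φ w := ⟨hol_cd hΦ.an, hΦ.det, by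
    filter_upwards [hΦ.eq, hΦ.an.eventually_analyticAt] with v ⟨c, b⟩ f
    exact ⟨c, 0, by rw [P275HK.dz_hol f.differentiableAt]; exact b.trans (by simp),
      by rw [P275HK.db_hol f]; simp⟩⟩
  have p : ∀ᶠ v in 𝓝 w, s v ^ n = u v / (Φ v).det := by
    filter_upwards [e, d, k.ev] with v b c f
    rw [eq_div_iff f.2, ← c, b, det_smul, Fintype.card_fin]
  have p0 : u w / (Φ w).det ≠ 0 := div_ne_zero h0 hΦ.det
  have sm := root_sm hn hs.self_of_nhds (hu.mul ((cd_det k.sm).inv hΦ.det)) p0 p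
  have s0 : s w ≠ 0 := fun b => p0 (by rw [← p.self_of_nhds, b, zero_pow hn.ne'])
  have k' : Gk a 0 a 0 (fun v => s v • (1 : Mn n)) w := ⟨sm.smul contDiffAt_const, by simp [s0], by
    filter_upwards [c2_ev (sm.of_le two_le), sm.continuousAt.eventually_ne s0] with v b c
    refine ⟨wd 1 s v / s v, wb 1 s v / s v, ?_, ?_⟩
    · rw [dz, wd_smul (c2_df b) (differentiableAt_const _), wd_const, smul_smul,
        div_mul_cancel₀ _ c]
      simp [add_comm]
    · rw [db, wb_smul (c2_df b) (differentiableAt_const _), wb_const, smul_smul,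
        div_mul_cancel₀ _ c]
      simp⟩
  exact (k.comp k').congr (e.mono fun v b => by simp [b])

theorem wv_mul' (ρ : Tup g n) (a b : FreeGroup (Fin g × Bool)) :
    wv ρ (a * b) = wv ρ a * wv ρ b := congrArg Subtype.val (map_mul (FreeGroup.lift ρ) a b)

theorem wv_det' (ρ : Tup g n) (a : FreeGroup (Fin g × Bool)) : (wv ρ a).det = 1 :=
  (FreeGroup.lift ρ a).2

variable {C : Type} [TopologicalSpace C] [T1Space C] {A : At C} {p : C} {i : Fin A.N}

theorem ev_chart {x : Pc p} (h : InU A i x) {r : Pc p → Prop} (hr : ∀ᶠ y in 𝓝 x, r y) :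
    ∀ᶠ w in 𝓝 (A.e i x), ∃ y : Pc p, r y ∧ A.e i y = w := by
  have e : map (fun y : Pc p => A.e i y) (𝓝 x) = 𝓝 (A.e i x) := by
    rw [← (A.e i).map_nhds_eq h.1, ← isOpen_compl_singleton.isOpenEmbedding_subtypeVal.map_nhds_eq,
      Filter.map_map]
    rfl
  rw [← e]
  exact hr.mono fun y a => ⟨y, a, rfl⟩

theorem off_e {x : Pc p} (h : InU A i x) : A.e i x ∈ off A p i :=
  ⟨At.map_src h.1, by rw [(A.e i).left_inv h.1]; exact x.2⟩

theorem mon_of [ChartedSpace ℂ C] {l : Cy A ℂ} {d : ℤ} (hn : 0 < n) (P : Loc A l g n d)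
    {z : Dat C A.N n} (hx : z.x ∈ P.V) {x₀ : Pc z.x} (M : Marking g z.x x₀) {u : Fm A ℂ}
    (hu : ∀ j, ∀ w ∈ off A z.x j, P.u z.x j w = u j w ∧ ContDiffAt ℝ ∞ (u j) w ∧ u j w ≠ 0)
    {k : P.ι} (hk : fib hx x₀ ∈ P.U k)
    (hr : ∀ γ, (P.cy.pull (P.cy.toOc.pre (fib hx)) fun _ _ h => h).rep hk (M.e γ) = γ)
    {ρ : Tup g n} {F : P.ι → Fm A (Mn n)} (fr : Frm P z hx ρ F) : Mon A M u z ρ := by
  have cy := P.cy.pull (P.cy.toOc.pre (fib hx)) fun _ _ h => h
  choose m hm using cy.cov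
  have ev : ∀ (x : Pc z.x) a, fib hx x ∈ P.U a → ∀ᶠ y in 𝓝 x, fib hx y ∈ P.U a :=
    fun x a h => (cy.opn a).mem_nhds h
  let H : ∀ x : Pc z.x, PQ x₀ x → P.ι → FreeGroup (Fin g × Bool) := fun x γ a =>
    hol (fun i => fib hx ⁻¹' P.U i) (fun k l a => P.c k l (fib hx a)) γ k a
  have sw : ∀ (x : Pc z.x) γ a b i, fib hx x ∈ P.U a → fib hx x ∈ P.U b → InU A i x →
      ∀ᶠ w in 𝓝 (A.e i x), F a i w * wv ρ (H x γ a) = F b i w * wv ρ (H x γ b) :=
    fun x γ a b i ha hb hi => by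
      filter_upwards [ev_chart hi (((ev x a ha).and (ev x b hb)).and ((ev_InU hi).and
        (cy.lc b a x ⟨hb, ha⟩)))] with w ⟨y, ⟨⟨e1, e2⟩, e3, e4⟩, e⟩
      rw [← e, fr.coc y b a i e2 e1 e3, Matrix.mul_assoc, ← wv_mul', e4]
      exact congrArg (fun t => _ * wv ρ t) (cy.hol_right γ ha hb k).symm
  have dt : ∀ (x : Pc z.x) i, InU A i x → ∀ᶠ w in 𝓝 (A.e i x), (F (m x) i w).det = u i w :=
    fun x i hi => by
      filter_upwards [ev_chart hi ((ev x _ (hm x)).and (ev_InU hi))] with w ⟨y, ⟨e1, e2⟩, e⟩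
      rw [← e, fr.det y _ i e1 e2, (hu i _ (off_e e2)).1]
  refine (mon_iff fun x i hi => (hu i _ (off_e hi)).2.2).2
    ⟨fun x γ i w => F (m x) i w * wv ρ (H x γ (m x)), ⟨fun x γ i hi => ?_, fun x γ i hi => ?_,
      fun x γ i j hi hj => ?_, fun x γ i hi => ⟨_, ev x _ (hm x), fun y δ hδ hy => ?_⟩⟩,
      fun s i hi => ?_⟩
  · exact (gk_pf hn (fr.pf x _ i (hm x) hi) (hu i _ (off_e hi)).2.1 (hu i _ (off_e hi)).2.2
      (dt x i hi)).mul_const (by rw [wv_det']; exact one_ne_zero)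
  · exact (dt x i hi).mono fun w e => by rw [Matrix.det_mul, wv_det', mul_one, e]
  · filter_upwards [ev_chart hi ((ev x _ (hm x)).and ((ev_InU hi).and (ev_InU hj)))]
      with w ⟨y, ⟨e1, e2, e3⟩, e⟩
    rw [← e, At.tr_e e2.1, fr.chg y _ i j e1 e2 e3, Matrix.mul_assoc]
  · have hy' : fib hx y ∈ P.U (m x) := δ.target ▸ hδ 1
    filter_upwards [sw y (γ.trans (.mk δ)) _ _ i (hm y) hy' hy] with w e
    refine e.trans (congrArg (fun t => _ * wv ρ t) ?_)
    exact (cy.hol_trans (hm x) γ _ k _).trans (by rw [cy.hol_self δ hδ, one_mul])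
  · filter_upwards [sw x₀ (M.e (FreeGroup.of s)).toPath _ _ i (hm x₀) hk hi,
      sw x₀ (.refl x₀) _ _ i (hm x₀) hk hi] with w e e'
    have a : H x₀ (M.e (FreeGroup.of s)).toPath k = FreeGroup.of s := hr _
    have b : H x₀ (.refl x₀) k = 1 := (cy.hol_refl hk hk).trans (cy.one hk)
    rw [e, e', a, b]
    simp [wv]

theorem monr : MONR := by
  rintro S T P hp hu k hk hr ⟨lam, x, c, a, σ, R⟩ ρ rfl ⟨-, hx, F, fr, -⟩
  exact mon_of (zero_lt_two.trans_le S.adm.hn) P hx S.M (fun j w h => ⟨hu j w h,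
    (P275AD.trv_spec T.ok T.dv S.triv h).1, (P275AD.trv_spec T.ok T.dv S.triv h).2.1⟩) hk hr fr

end Vale.Agent.P275NB
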