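import Vale.Agent.P275NB.Mon
import Vale.Agent.P275AD.Met
import Vale.Agent.P275AD.Gau
import Vale.Agent.P275NU.Defs
import Vale.Agent.P275RH.Mer
import Vale.Agent.P275GC.St

/-!
# P275, block NB: the relation of the statement in charts
-/

set_option linter.unusedSectionVars false

open scoped Matrix.Norms.Operator Topology ContDiff Manifold
open Filter Set Matrix Metric
open Vale.Agent.P275GC Vale.Agent.P275GC.At Vale.Agent.P275AD
open Vale.Agent.P275NA (Fm Cy Mn dz db cn ad)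
open Vale.Agent.P275RH (PQ)
open Vale.Agent.P275ST (Marking Pc Higgs IsTriv NAH Rep ctr deg)
open Vale.Agent.P275Z (InU trv)
open Vale.Agent.P275HK (cd_det hol_cd cd_mul cd_inv cd_dz cd_db cd_ad pd_ne)
open Vale.Agent.P275NU (PF)

noncomputable section

namespace Vale.Agent.P275NB

variable {C : Type} [TopologicalSpace C] [ChartedSpace ℂ C] {A : At C} {i : Fin A.N} {z : ℂ}
  {D : C →₀ ℤ} {l : Cy A ℂ} {s : Fm A ℂ} {p : C} {ℓ : C → ℂ}

theorem trv_spec (ok : Ok A) (dv : Dv A D l s) (hℓ : IsTriv D p ℓ) (hz : z ∈ ball (0 : ℂ) A.R)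
    (hp : pt A i z ≠ p) :
    (∀ᶠ w in 𝓝[≠] z, trv A s ℓ i w = ℓ (pt A i w) * s i w) ∧ trv A s ℓ i z ≠ 0 := by
  have t := (mem_tgt (i := i)).2 hz
  have b := (ok i).bi t
  obtain ⟨v, v1, v2, v3⟩ := hℓ _ hp
  have m : MeromorphicAt (fun w => (tc (A.e i) z w - ctr (pt A i z)) ^ (-D (pt A i z))) z :=
    (b.a1.sub analyticAt_const).meromorphicAt.zpow _
  obtain ⟨q1, q2, q3⟩ := ord_zero (m.mul (dv.mer i z hz)) (by
    rw [meromorphicOrderAt_mul m (dv.mer i z hz), dv.ord i z hz,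
      b.ord (f := fun u => (u - ctr (pt A i z)) ^ (-D (pt A i z))) (Eventually.of_forall fun _ => rfl),
      fun_meromorphicOrderAt_zpow_id_sub_const, ← WithTop.coe_add, neg_add_cancel]
    rfl)
  set q := hx ((fun w => (tc (A.e i) z w - ctr (pt A i z)) ^ (-D (pt A i z))) * s i)
  have c : ContDiffAt ℝ ∞ (fun w => v (tc (A.e i) z w) * q w) z :=
    ((b.e1 ▸ v1).comp z (hol_cd b.a1)).mul (hol_cd q1)
  have e : (fun w => ℓ (pt A i w) * s i w) =ᶠ[𝓝[≠] z] fun w => v (tc (A.e i) z w) * q w := by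
    filter_upwards [q3, b.tend.eventually v3, b.tend.eventually (ev_ne _), loc_tc t ℓ]
      with w e1 e2 e3 e4
    rw [← e1, ← e2, ← e4, Pi.mul_apply, mul_comm (_ ^ _), mul_assoc, ← mul_assoc (_ ^ _),
      ← zpow_add₀ (sub_ne_zero.2 e3), add_neg_cancel, zpow_zero, one_mul]
  have f := hx_ev ((sm_ev c).mono fun _ a => a.continuousAt) e
  refine ⟨EventuallyEq.trans (pn f) e.symm, f.self_of_nhds.trans_ne (mul_ne_zero ?_ q2)⟩
  rwa [b.e1]

theorem pt_e {x : C} (h : InU A i x) : pt A i (A.e i x) = x := (A.e i).left_inv h.1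

theorem ev_e {x : C} (h : InU A i x) {r : C → Prop} :
    (∀ᶠ y in 𝓝[≠] x, r y) ↔ ∀ᶠ w in 𝓝[≠] (A.e i x), r (pt A i w) := by
  rw [← ev_A (map_src h.1), pt_e h]

variable [IsManifold 𝓘(ℂ) ω C] [T2Space C] {n g : ℕ} {c : Cy A (Mn n)} {σ a k : Fm A (Mn n)}
  {E : Higgs C n D} {x₀ : Pc p} {M : Marking g p x₀} {ρ : Rep g n (deg D)}

theorem pf_of (ok : Ok A) (h : Ad A E c a σ) (hn : 0 < n) {H : C → Mn n} (hk : A.MtM ∞ c k)
    (hr : MetR A σ H k) (fl : ∀ x ≠ p, ∃ F, E.IsFlat H F x) : PF A a k := fun i z hz => by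
  have s := hk.sm.at hz i
  have d := pd_ne (hk.pos i z hz)
  have b : ContDiffAt ℝ ∞ (a i) z := hol_cd (h.hol.an hz i)
  have e := (cd_ad s d s b).continuousAt
  refine eq_of_ev (f := fun w => P275MO.tf (P275NA.hk (k i) (a i) w)) (g := fun _ => 0)
    (cont_tf.continuousAt.comp ((cd_db (N := 0) (f := cn (k i)) (cd_mul (cd_inv (s.of_le (by simp)) d)
      (cd_dz (s.of_le (by rw [zero_add, one_add_one_eq_two]; exact two_le))))).continuousAt.neg.add
        ((b.continuousAt.mul e).sub (e.mul b.continuousAt)))) continuousAt_const ?_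
  filter_upwards [ev_off (i := i) p hz] with w hw
  obtain ⟨F, f⟩ := fl _ hw.2
  obtain ⟨Ψ, a1, a2, -, a4⟩ := (h.flat_iff ok hk hr hw.1).1 f
  refine Gk.hitchin ⟨a1, a2, a4.mono fun w ⟨⟨α, e1⟩, β, e2⟩ => ⟨α, β, ?_, ?_⟩⟩ hn
    ⟨(hk.sm.at hw.1 i).of_le two_le, eventually_of_mem (isOpen_ball.mem_nhds hw.1) (hk.pos i)⟩
    (h.hol.an hw.1 i)
  · rwa [Pi.zero_apply, Matrix.mul_zero, zero_add]
  · rwa [Pi.zero_apply, Matrix.mul_zero, zero_add]

theorem mo_of_nah [ConnectedSpace C] (ok : Ok A) (h : Ad A E c a σ) (dv : Dv A D l s)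
    (hd : ∀ i j, ∀ w ∈ A.O i j, (c i j w).det = l i j w) (hn : 0 < n) (N : NAH M ℓ E ρ) :
    ∃ k, A.MtM ∞ c k ∧ PF A a k ∧ Mo A M c (fun i w => cn (k i) w + a i w)
      (fun i w => ad (k i w) (k i w) (a i w)) (trv A s ℓ) fun s => (ρ.1 s).1 := by
  obtain ⟨H, f, F, m, df, fl, con, mon⟩ := N
  obtain ⟨k, hk, hr⟩ := met_to ok h.fr m
  obtain ⟨u, hu, e⟩ := h.fr.detI ok dv df
  have uf : A.Fn u := fun i j z hz => by
    have := hu.tr i j z hz
    rw [hd i j z hz, mul_comm] at this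
    exact mul_left_cancel₀ (dv.cc.ne hz) this
  obtain ⟨i0, h0, -⟩ := A.cov x₀
  have uc := fun j w hw => uf.hol_const1 hu.hol (map_src h0) i0 j (w := w) hw
  have u0 := hu.ne i0 _ (map_src h0)
  set b := u i0 (A.e i0 x₀)
  obtain ⟨t, ht⟩ := IsAlgClosed.exists_pow_nat_eq b⁻¹ hn
  have t0 : t ≠ 0 := fun a => inv_ne_zero u0 (by rw [← ht, a, zero_pow hn.ne'])
  let Φ : ∀ x : Pc p, PQ x₀ x → Fm A (Mn n) := fun x γ i =>
    hx fun w => (σ i w)⁻¹ * F x γ (pt A i w)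
  have key : ∀ (x : Pc p) γ i, InU A i x → Gk 0 0 (fun w => cn (k i) w + a i w)
      (fun w => ad (k i w) (k i w) (a i w)) (Φ x γ i) (A.e i x) ∧
      ∀ᶠ w in 𝓝[≠] (A.e i x), F x γ (pt A i w) = σ i w * Φ x γ i w := fun x γ i hi => by
    obtain ⟨Ψ, a1, a2, a3, a4⟩ := (h.flat_iff ok hk hr (map_src hi.1)).1
      ((pt_e hi).symm ▸ (fl x γ).1)
    have b1 : Φ x γ i =ᶠ[𝓝 (A.e i x)] Ψ := hx_ev ((sm_ev a1).mono fun _ a => a.continuousAt) (by
      filter_upwards [a3, h.fr.nd (i := i) (map_src hi.1)] with w e1 e2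
      rw [e1, nonsing_inv_mul_cancel_left _ _ e2.isUnit])
    refine ⟨Gk.congr ⟨a1, a2, a4.mono fun w ⟨⟨α, e1⟩, β, e2⟩ => ⟨α, β, ?_, ?_⟩⟩ b1.symm,
      (a3.and (pn b1)).mono fun w e1 => e1.2 ▸ e1.1⟩
    · rwa [Pi.zero_apply, Matrix.mul_zero, zero_add]
    · rwa [Pi.zero_apply, Matrix.mul_zero, zero_add]
  have := P275RH.pc_pc p
  refine ⟨k, hk, pf_of ok h hn hk hr fun x hp =>
    ⟨_, (fl ⟨x, hp⟩ (.mk (PathConnectedSpace.somePath _ _))).1⟩, Mo.map (c := c) (P := fun i w => cn (k i) w + a i w)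
    (Q := fun i w => ad (k i w) (k i w) (a i w)) (u := fun i w => b * trv A s ℓ i w)
    (K := fun _ _ => t • 1)
    ⟨Φ, ⟨fun x γ i hi => (key x γ i hi).1, fun x γ i hi => ?_, fun x γ i j hi hj => ?_,
      fun x γ i hi => (con x γ).imp fun V v => ⟨v.1, fun y δ d hy => hx_congr
        (((ev_e hy).1 (v.2 y δ d)).mono fun w e1 => congrArg ((σ i w)⁻¹ * ·) e1)⟩⟩,
      fun s i hi => ?_⟩
    (fun x i _ => gk_const (by simp [t0]) (Eventually.of_forall fun u => ⟨0, 0, by simp, by simp⟩))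
    (fun x i _ => Eventually.of_forall fun w => ?_)
    fun x i j _ _ => Eventually.of_forall fun w => by simp⟩
  · have := hx_ev (f := fun w => ℓ (pt A i w) * s i w) (g := fun w => b⁻¹ * (Φ x γ i w).det)
      ((key x γ i hi).1.ev.mono fun _ a => continuousAt_const.mul (cd_det a.1).continuousAt) (by
        filter_upwards [(key x γ i hi).2, (ev_e hi).1 (fl x γ).2, e i _ (map_src hi.1),
          ev_ball (map_src hi.1)] with w e1 e2 e3 e4
        rw [uc i w e4] at e3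
        rw [← e2, e1, Matrix.det_mul, eq_inv_mul_iff_mul_eq₀ u0]
        linear_combination (Φ x γ i w).det * e3)
    exact this.mono fun w e1 => ((eq_inv_mul_iff_mul_eq₀ u0).1 e1).symm
  · have o := mem_O hi.1 hj.1
    have kj := key x γ j hj
    rw [← tr_e hi.1] at kj
    refine ev_eq (key x γ i hi).1.sm.continuousAt ((h.fr.cc.an o).continuousAt.mul
      (kj.1.sm.continuousAt.comp (an_tr o).continuousAt)) ?_
    filter_upwards [(key x γ i hi).2, (bi_tr o).tend.eventually kj.2, h.fr.tr i j _ o,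
      h.fr.nd (i := i) o.1, ev_O o] with w e1 e2 e3 e4 e5
    refine lcancel e4 ?_
    rw [← e1, ← Matrix.mul_assoc, ← e3, ← e2, pt_tr e5]
  · refine ev_eq (key _ _ i hi).1.sm.continuousAt
      ((key _ _ i hi).1.sm.continuousAt.mul continuousAt_const) ?_
    filter_upwards [(key _ (M.e (FreeGroup.of s)).toPath i hi).2, (key _ (.refl _) i hi).2,
      (ev_e hi).1 (mon s), h.fr.nd (i := i) (map_src hi.1)] with w e1 e2 e3 e4
    refine lcancel e4 ?_
    rw [← e1, ← Matrix.mul_assoc, ← e2, e3]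
  · rw [det_smul, det_one, mul_one, Fintype.card_fin, ht, inv_mul_cancel_left₀ u0]

theorem nah_of_mo (ok : Ok A) (h : Ad A E c a σ) (dv : Dv A D l s)
    (hd : ∀ i j, ∀ w ∈ A.O i j, (c i j w).det = l i j w) (hℓ : IsTriv D p ℓ) (hk : A.MtM ∞ c k)
    (m : Mo A M c (fun i w => cn (k i) w + a i w) (fun i w => ad (k i w) (k i w) (a i w))
      (trv A s ℓ) fun s => (ρ.1 s).1) : NAH M ℓ E ρ := by
  obtain ⟨H, hr⟩ := met_of h.fr hk
  obtain ⟨f, df, e⟩ := h.fr.detIso ok dv (u := fun _ _ => 1) ⟨fun _ => differentiableOn_const _,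
    fun _ _ _ => one_ne_zero, fun i j w hw => by rw [hd i j w hw, mul_comm]⟩
  obtain ⟨Φ, m, mon⟩ := m
  choose ix hx using fun x : Pc p => A.cov x
  let F : ∀ x : Pc p, PQ x₀ x → C → Mn n := fun x γ y =>
    σ (ix x) (A.e (ix x) y) * Φ x γ (ix x) (A.e (ix x) y)
  have key : ∀ (x : Pc p) γ i, InU A i x →
      ∀ᶠ w in 𝓝[≠] (A.e i x), F x γ (pt A i w) = σ i w * Φ x γ i w := fun x γ i hi => by
    filter_upwards [h.fr.tr i _ _ (mem_O hi.1 (hx x).1), pn (m.tr x γ i _ hi (hx x))] with w e1 e2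
    rw [e2, ← Matrix.mul_assoc, ← e1]
    rfl
  refine ⟨H, f, F, hr.isMetric ok h.fr hk, df, fun x γ => ⟨?_, (ev_e (hx x)).2 ?_⟩, fun x γ => ?_,
    fun s => (ev_e (hx x₀)).2 ?_⟩
  · have := m.pf x γ _ (hx x)
    rw [← pt_e (hx x)]
    refine (h.flat_iff ok hk hr (map_src (hx x).1)).2 ⟨_, this.sm, this.ne, key x γ _ (hx x),
      this.eq.mono fun w ⟨α, β, e1, e2⟩ => ⟨⟨α, ?_⟩, β, ?_⟩⟩
    · rwa [Pi.zero_apply, Matrix.mul_zero, zero_add] at e1
    · rwa [Pi.zero_apply, Matrix.mul_zero, zero_add] at e2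
  · filter_upwards [key x γ _ (hx x), pn (m.det x γ _ (hx x)), e (ix x) _ (map_src (hx x).1),
      (trv_spec ok dv hℓ (map_src (hx x).1) ((pt_e (hx x)).trans_ne x.2)).1] with w e1 e2 e3 e4
    rw [e1, Matrix.det_mul, e2, e4]
    linear_combination ℓ (pt A (ix x) w) * e3
  · obtain ⟨V, v1, v2⟩ := m.con x γ _ (hx x)
    refine ⟨_, inter_mem v1 (ev_InU (hx x)), fun y δ d => ?_⟩
    have hy : InU A (ix x) y := (δ.target ▸ d 1).2
    refine (ev_e hy).2 ?_
    filter_upwards [key y (γ.trans (.mk δ)) _ hy, pn (v2 y δ (fun t => (d t).1) hy),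
      ev_ball (map_src hy.1)] with w e1 e2 e3
    rw [e1, e2]
    simp only [F, rinv e3]
  · filter_upwards [key _ (M.e (FreeGroup.of s)).toPath _ (hx x₀), key _ (.refl _) _ (hx x₀),
      pn (mon s _ (hx x₀))] with w e1 e2 e3
    rw [e1, e2, e3, Matrix.mul_assoc]

end Vale.Agent.P275NB
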