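import Vale.Agent.P275RL.Chg

/-!
# P275, block FLT: a finite cover of the punctured curve which trivialises the universal cocycle
-/

set_option linter.unusedSectionVars false

open scoped Topology Real Pointwise
open Filter Set Metric Complex
open Vale.Agent.P275GC (At)
open Vale.Agent.P275GC.At
open Vale.Agent.P275NA (Cy)
open Vale.Agent.P275MO
open Vale.Agent.P275ST (Pc)
open Vale.Agent.P275RH (cwd Lc)
open Vale.Agent.P275Z (InU)
open Vale.Agent.P275RL

noncomputable section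

namespace Vale.Agent.P275NB

variable {C : Type} [TopologicalSpace C] {n g : ℕ} {A : At C} {l : Cy A ℂ} {d : ℤ}
  (P : Loc A l g n d) {p : C} (hp : p ∈ P.V)

/-- induction over the universal cover of a fibre -/
theorem cov_ind (S : Std A l n d) {Q : P.ι → Pc p → Fg g → Prop}
    (tr : ∀ k m y w, fib hp y ∈ P.U k → fib hp y ∈ P.U m → Q m y w →
      Q k y (P.c k m (fib hp y) * w))
    (lc : ∀ k y, fib hp y ∈ P.U k → ∀ᶠ y' in 𝓝 y, ∀ w, Q k y' w ↔ Q k y w)
    {k₀ : P.ι} {y₀ : Pc p} {w₀ : Fg g} (h₀ : fib hp y₀ ∈ P.U k₀) (q₀ : Q k₀ y₀ w₀) :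
    ∀ k y w, fib hp y ∈ P.U k → Q k y w := by
  obtain ⟨m, a, b⟩ := P.const S hp (M := Set (Fg g)) (s := fun k y => {w | Q k y w})
    ⟨fun k y hk => (lc k y hk).mono fun _ e => Set.ext e, fun k m y hk hm => Set.ext fun v => by
      rw [mem_smul_set_iff_inv_smul_mem, smul_eq_mul]
      refine ⟨fun h => ?_, fun h => by simpa using tr k m y _ hk hm h⟩
      rw [P.cy.inv hk hm]
      exact tr m k y v hm hk h⟩
  intro k y w hk
  have : w₀ ∈ m := b k₀ y₀ h₀ ▸ q₀
  have e : w ∈ (w * w₀⁻¹) • m := ⟨w₀, this, by simp⟩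
  rw [a, ← b k y hk] at e
  exact e

theorem b_shift (k : P.ι) (m : ℤ) : ∀ q q' : Nd P.V P.δ,
    q.1 = (q'.1.1, q'.1.2 + m * (2 * π * I)) → P.ν q' ∈ P.U k → P.b k q = P.b k q' * cwd g ^ m := by
  have nu : ∀ (m : ℤ) (q q' : Nd P.V P.δ), q.1 = (q'.1.1, q'.1.2 + m * (2 * π * I)) →
      P.ν q = P.ν q' := fun m q q' e => Subtype.ext (by
    rw [P.ν_eq, P.ν_eq, e, exp_add, exp_int_mul_two_pi_mul_I, mul_one])
  induction m using Int.induction_on with
  | zero => intro q q' e _; rw [Subtype.ext (e.trans (by simp) : q.1 = q'.1), zpow_zero, mul_one]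
  | succ m ih =>
    intro q q' e h
    rw [ih q q'.T (by rw [e]; simp only [Nd.T]; congr 1; push_cast; ring) (P.ν_T q' ▸ h),
      P.per k q' h, mul_assoc, ← zpow_one_add, add_comm]
  | pred m ih =>
    intro q q' e h
    have := ih q.T q' (by simp only [Nd.T, e]; congr 1; push_cast; ring) h
    rw [P.per k q (nu _ q q' e ▸ h)] at this
    rw [zpow_sub_one, ← mul_assoc, ← this, mul_inv_cancel_right]

/-- a piece of the cover -/
structure Pie (D : Set C) where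
  U : Set (Pc p)
  opn : IsOpen U
  k : Fin A.N
  sub : ∀ x ∈ U, InU A k x
  β : P.ι → Pc p → Fg g
  lc : ∀ m, Lc (U ∩ fib hp ⁻¹' P.U m) (β m)
  tr : ∀ m m', ∀ x ∈ U, fib hp x ∈ P.U m → fib hp x ∈ P.U m' →
    β m x = P.c m m' (fib hp x) * β m' x
  θ : Pc p → ℂ
  log : ∀ x ∈ U, x.1 ∈ D → k = P.a ∧ ContinuousAt θ x ∧ ∃ q : Nd P.V P.δ, q.1 = (p, θ x) ∧
    P.ν q = fib hp x ∧ ∀ m, β m x = P.b m q

/-- the disc of radius `r` around `p` -/
def Dk (p : C) (r : ℝ) : Set C := (A.e P.a).source ∩ A.e P.a ⁻¹' ball (A.e P.a p) r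

theorem dk_open (p : C) (r : ℝ) : IsOpen (Dk P p r) :=
  (A.e P.a).continuousOn.isOpen_inter_preimage (A.e P.a).open_source isOpen_ball

/-- the base point -/
def q0 : Nd P.V P.δ := ⟨(p, (Real.log P.δ - 1 : ℝ)), hp, by rw [ofReal_re]; linarith⟩

open Classical in
/-- the point with logarithm `L` -/
def qq (L : ℂ) : Nd P.V P.δ := if h : L.re < Real.log P.δ then ⟨(p, L), hp, h⟩ else q0 P hp

theorem qq_val {L : ℂ} (h : L.re < Real.log P.δ) : (qq P hp L).1 = (p, L) := by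
  rw [qq, dif_pos h]

theorem qq_cont {L : ℂ} (h : L.re < Real.log P.δ) : ContinuousAt (qq P hp) L :=
  Topology.IsInducing.subtypeVal.continuousAt_iff.2
    ((continuousAt_const.prodMk continuousAt_id).congr
      ((continuous_re.continuousAt.eventually (eventually_lt_nhds h)).mono fun _ a =>
        (qq_val P hp a).symm))

theorem pie_near (D : Set C) (L : ℂ) : ∃ T : Pie P hp D, ∀ x : Pc p, x.1 ∈ Dk P p P.δ →
    (A.e P.a x - A.e P.a p) / exp L ∈ slitPlane → x ∈ T.U := by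
  let U : Set (Pc p) := Subtype.val ⁻¹' ((A.e P.a).source ∩ A.e P.a ⁻¹'
    (ball (A.e P.a p) P.δ ∩ {v | (v - A.e P.a p) / exp L ∈ slitPlane}))
  let θ : Pc p → ℂ := fun x => br (A.e P.a p) L (A.e P.a x)
  have ne : ∀ x ∈ U, A.e P.a x ≠ A.e P.a p := fun x hx e =>
    x.2 ((A.e P.a).injOn hx.1 (P.sub p hp).1 e)
  have lt : ∀ x ∈ U, (θ x).re < Real.log P.δ := fun x hx => (exp_mem_ball P.hδ).1 (by
    rw [exp_br (ne x hx), ← add_mem_ball (c := A.e P.a p), add_sub_cancel]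
    exact hx.2.1)
  have nu : ∀ x ∈ U, P.ν (qq P hp (θ x)) = fib hp x := fun x hx => Subtype.ext (by
    rw [P.ν_eq, qq_val P hp (lt x hx), exp_br (ne x hx), add_sub_cancel, (A.e P.a).left_inv hx.1]
    rfl)
  have ct : ∀ x ∈ U, ContinuousAt θ x := fun x hx => continuousAt_const.add
    (((((A.e P.a).continuousAt hx.1).comp continuous_subtype_val.continuousAt).sub
      continuousAt_const).div_const _ |>.clog hx.2.2)
  refine ⟨⟨U, ((A.e P.a).continuousOn.isOpen_inter_preimage (A.e P.a).open_source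
    (isOpen_ball.inter (isOpen_slitPlane.preimage (by fun_prop)))).preimage continuous_subtype_val,
    P.a, fun x hx => ⟨hx.1, mem_ball_zero_iff.1 (P.ball_sub hp hx.2.1)⟩,
    fun m x => P.b m (qq P hp (θ x)), fun m x hx => ((qq_cont P hp (lt x hx.1)).comp
      (ct x hx.1)).eventually (P.fs.lc m _ (show P.ν (qq P hp (θ x)) ∈ P.U m by
        rw [nu x hx.1]; exact hx.2)),
    fun m m' x hx a b => ?_, θ, fun x hx _ => ⟨rfl, ct x hx, _, qq_val P hp (lt x hx), nu x hx,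
      fun _ => rfl⟩⟩, fun x a b => ⟨a.1, a.2, b⟩⟩
  rw [← nu x hx] at a b ⊢
  exact P.fs.tr m m' _ a b

theorem pie_far {D K : Set C} (hK : IsClosed K) (hD : D ⊆ K) (x : Pc p) (hx : x.1 ∉ K) :
    ∃ T : Pie P hp D, x ∈ T.U := by
  obtain ⟨m, hm⟩ := P.cy.cov (fib hp x)
  obtain ⟨j, hj⟩ := A.cov x
  exact ⟨⟨fib hp ⁻¹' P.U m ∩ Subtype.val ⁻¹' ({y | InU A j y} ∩ Kᶜ),
    ((P.cyf hp).opn m).inter (((inU_open A j).inter hK.isOpen_compl).preimage
      continuous_subtype_val), j, fun y hy => hy.2.1, fun k y => P.c k m (fib hp y),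
    fun k y hy => (P.cyf hp).lc k m y ⟨hy.2, hy.1.1⟩,
    fun k k' y hy a b => (P.cy.mul k k' m _ a b hy.1).symm, fun _ => 0,
    fun y hy a => absurd (hD a) hy.2.2⟩, hm, hj, hx⟩

theorem pie_cover (S : Std A l n d) : ∃ (M : ℕ) (T : Fin M → Pie P hp (Dk P p (P.δ / 2))),
    ∀ x, ∃ a, x ∈ (T a).U := by
  have := S.t2
  have := S.cpt
  have sb : closedBall (A.e P.a p) (P.δ / 2) ⊆ ball (A.e P.a p) P.δ :=
    closedBall_subset_ball (half_lt_self P.hδ)
  have hK : IsCompact ((A.e P.a).symm '' closedBall (A.e P.a p) (P.δ / 2)) :=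
    (isCompact_closedBall _ _).image_of_continuousOn
      ((cont_symm P.a).mono (sb.trans (P.ball_res hp A.hR)))
  obtain ⟨t, ht⟩ := (dk_open P p P.δ).isClosed_compl.isCompact.elim_finite_subcover
    (fun T : Pie P hp (Dk P p (P.δ / 2)) => Subtype.val '' T.U)
    (fun T => isOpen_compl_singleton.isOpenEmbedding_subtypeVal.isOpenMap _ T.opn) fun x hx => by
      obtain ⟨T, h⟩ := pie_far P hp (D := Dk P p (P.δ / 2)) hK.isClosed
        (fun y hy => ⟨_, ball_subset_closedBall hy.2, (A.e P.a).left_inv hy.1⟩)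
        ⟨x, fun e => hx (by rw [show x = p from e]; exact ⟨(P.sub p hp).1, mem_ball_self P.hδ⟩)⟩ (by
          rintro ⟨v, a, rfl⟩
          have b := P.ball_res hp A.hR (sb a)
          exact hx ⟨map_tgt b, by rw [mem_preimage, rinv b]; exact sb a⟩)
      exact mem_iUnion.2 ⟨T, _, h, rfl⟩
  obtain ⟨T₁, h₁⟩ := pie_near P hp (Dk P p (P.δ / 2)) 0
  obtain ⟨T₂, h₂⟩ := pie_near P hp (Dk P p (P.δ / 2)) (π * I)
  classical
  refine ⟨_, fun a => ((insert T₁ (insert T₂ t)).equivFin.symm a).1, fun x => ?_⟩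
  suffices h : ∃ T ∈ insert T₁ (insert T₂ t), x ∈ T.U by
    obtain ⟨T, a, b⟩ := h
    exact ⟨(insert T₁ (insert T₂ t)).equivFin ⟨T, a⟩, by simpa using b⟩
  by_cases hx : x.1 ∈ Dk P p P.δ
  · rcases mem_slitPlane_or_neg_mem_slitPlane (z := A.e P.a x - A.e P.a p) (sub_ne_zero.2
      fun e => x.2 ((A.e P.a).injOn hx.1 (P.sub p hp).1 e)) with h | h
    · exact ⟨T₁, by simp, h₁ x hx (by simpa using h)⟩
    · exact ⟨T₂, by simp, h₂ x hx (by rwa [exp_pi_mul_I, div_neg, div_one])⟩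
  · obtain ⟨T, a, y, b, e⟩ := mem_iUnion₂.1 (ht hx)
    exact ⟨T, by simp [a], Subtype.ext e ▸ b⟩

end Vale.Agent.P275NB
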